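import Mathlib.Analysis.Calculus.ContDiff.Bounds
import Mathlib.Analysis.Calculus.ContDiff.Operations
import Mathlib.Analysis.Calculus.FDeriv.Mul
import Mathlib.Analysis.Asymptotics.Lemmas
import Mathlib.Analysis.Normed.Module.FiniteDimension

/-!
# Bounded jets along a filter

`BJ l x k f`: along the filter `l` the functions `f n` are smooth at `x n` and their derivatives
of order at most `k` at `x n` are bounded.  Uniform bounds on a set `U` are the case of the filter
`l ×ˢ 𝓟 U` and `x = Prod.snd`.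
-/

open Set Filter Topology Asymptotics
open scoped ContDiff

noncomputable section

namespace Vale.Agent.P216G

variable {ι : Type*} {l : Filter ι} {E : Type} [NormedAddCommGroup E] [NormedSpace ℝ E]
  {F G H : Type} [NormedAddCommGroup F] [NormedSpace ℝ F] [NormedAddCommGroup G] [NormedSpace ℝ G]
  [NormedAddCommGroup H] [NormedSpace ℝ H] {x : ι → E} {k : ℕ}

/-- bounded along the filter -/
def Bd (l : Filter ι) {F : Type*} [Norm F] (a : ι → F) : Prop := ∃ C : ℝ, ∀ᶠ n in l, ‖a n‖ ≤ C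

/-- smooth at `x n`, with bounded derivatives up to order `k` at `x n`, along `l` -/
structure BJ (l : Filter ι) (x : ι → E) (k : ℕ) (f : ι → E → F) : Prop where
  sm : ∀ᶠ n in l, ContDiffAt ℝ ∞ (f n) (x n)
  bd : ∀ j ≤ k, Bd l fun n => iteratedFDeriv ℝ j (f n) (x n)

theorem le_inf (j : ℕ) : (j : ℕ∞ω) ≤ ∞ := by exact_mod_cast le_top

theorem Bd.of_le {A B : Type*} [Norm A] [Norm B] {a : ι → A} {b : ι → B} (hb : Bd l b)
    (h : ∀ᶠ n in l, ‖a n‖ ≤ ‖b n‖) : Bd l a := by
  obtain ⟨C, hC⟩ := hb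
  exact ⟨C, by filter_upwards [hC, h] with n h1 h2 using h2.trans h1⟩

theorem Bd.congr {A : Type*} [Norm A] {a b : ι → A} (hb : Bd l b) (h : ∀ᶠ n in l, a n = b n) :
    Bd l a := hb.of_le (h.mono fun _ hn => by rw [hn])

theorem Bd.nonneg {A : Type*} [SeminormedAddCommGroup A] {a : ι → A} (h : Bd l a) :
    ∃ C : ℝ, 0 ≤ C ∧ ∀ᶠ n in l, ‖a n‖ ≤ C := by
  obtain ⟨C, hC⟩ := h
  exact ⟨max C 0, le_max_right _ _, hC.mono fun n hn => hn.trans (le_max_left _ _)⟩

theorem Bd.add {A : Type*} [SeminormedAddCommGroup A] {a b : ι → A} (ha : Bd l a) (hb : Bd l b) :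
    Bd l fun n => a n + b n := by
  obtain ⟨C, hC⟩ := ha
  obtain ⟨D, hD⟩ := hb
  exact ⟨C + D, by filter_upwards [hC, hD] with n h1 h2 using norm_add_le_of_le h1 h2⟩

theorem Bd.const {A : Type*} [Norm A] (a : A) : Bd l fun _ => a :=
  ⟨‖a‖, Eventually.of_forall fun _ => le_rfl⟩

theorem Bd.bilin (B : F →L[ℝ] G →L[ℝ] H) {a : ι → F} {b : ι → G} (ha : Bd l a) (hb : Bd l b) :
    Bd l fun n => B (a n) (b n) := by
  obtain ⟨C, hC0, hC⟩ := ha.nonneg
  obtain ⟨D, -, hD⟩ := hb.nonneg
  refine ⟨‖B‖ * C * D, ?_⟩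
  filter_upwards [hC, hD] with n h1 h2
  exact (B.le_opNorm₂ _ _).trans (by gcongr)

theorem Bd.comp_tendsto {κ : Type*} {l' : Filter κ} {A : Type*} [Norm A] {a : ι → A} (h : Bd l a)
    {φ : κ → ι} (hφ : Tendsto φ l' l) : Bd l' fun m => a (φ m) := by
  obtain ⟨C, hC⟩ := h
  exact ⟨C, hφ.eventually hC⟩

/-- `flip` as a continuous linear map -/
def flipL (F G H : Type) [NormedAddCommGroup F] [NormedSpace ℝ F] [NormedAddCommGroup G]
    [NormedSpace ℝ G] [NormedAddCommGroup H] [NormedSpace ℝ H] :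
    (F →L[ℝ] G →L[ℝ] H) →L[ℝ] (G →L[ℝ] F →L[ℝ] H) :=
  (ContinuousLinearMap.flipₗᵢ ℝ F G H).toContinuousLinearEquiv.toContinuousLinearMap

@[simp] theorem flipL_apply (B : F →L[ℝ] G →L[ℝ] H) : flipL F G H B = B.flip := rfl

namespace BJ

variable {f f' : ι → E → F} {g : ι → E → G}

theorem mono (h : BJ l x k f) {j : ℕ} (hj : j ≤ k) : BJ l x j f :=
  ⟨h.sm, fun i hi => h.bd i (hi.trans hj)⟩

theorem val (h : BJ l x k f) : Bd l fun n => f n (x n) :=
  (h.bd 0 (Nat.zero_le _)).of_le (Eventually.of_forall fun n => by rw [norm_iteratedFDeriv_zero])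

theorem zero_of (hs : ∀ᶠ n in l, ContDiffAt ℝ ∞ (f n) (x n)) (h : Bd l fun n => f n (x n)) :
    BJ l x 0 f :=
  ⟨hs, fun j hj => by
    obtain rfl : j = 0 := Nat.le_zero.1 hj
    exact h.of_le (Eventually.of_forall fun n => by rw [norm_iteratedFDeriv_zero])⟩

theorem congr (h : BJ l x k f) (he : ∀ᶠ n in l, f' n =ᶠ[𝓝 (x n)] f n) : BJ l x k f' :=
  ⟨by filter_upwards [h.sm, he] with n h1 h2 using h1.congr_of_eventuallyEq h2,
    fun j hj => (h.bd j hj).congr (he.mono fun n hn => (hn.iteratedFDeriv ℝ j).eq_of_nhds)⟩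

theorem comp_tendsto {κ : Type*} {l' : Filter κ} (h : BJ l x k f) {φ : κ → ι}
    (hφ : Tendsto φ l' l) : BJ l' (fun m => x (φ m)) k fun m => f (φ m) :=
  ⟨hφ.eventually h.sm, fun j hj => (h.bd j hj).comp_tendsto hφ⟩

theorem fderiv (h : BJ l x (k + 1) f) : BJ l x k fun n => fderiv ℝ (f n) :=
  ⟨h.sm.mono fun n hn => hn.fderiv_right (m := ∞) (by simp),
    fun j hj => (h.bd (j + 1) (by omega)).of_le
      (Eventually.of_forall fun n => by rw [norm_iteratedFDeriv_fderiv])⟩

theorem succ (h0 : BJ l x 0 f) (h : BJ l x k fun n => _root_.fderiv ℝ (f n)) :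
    BJ l x (k + 1) f :=
  ⟨h0.sm, fun j hj => by
    rcases j with _ | j
    · exact h0.bd 0 le_rfl
    · exact (h.bd j (by omega)).of_le
        (Eventually.of_forall fun n => by rw [norm_iteratedFDeriv_fderiv])⟩

theorem diff (h : BJ l x k f) : ∀ᶠ n in l, ∀ᶠ y in 𝓝 (x n), DifferentiableAt ℝ (f n) y :=
  h.sm.mono fun _ hn => ((hn.of_le (le_inf 1)).eventually (by simp)).mono
    fun _ hy => hy.differentiableAt (by simp)

/-- `succ` with an explicit formula for the derivative near the points -/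
theorem succ_of (h0 : BJ l x 0 f) {f' : ι → E → E →L[ℝ] F} (h : BJ l x k f')
    (hd : ∀ᶠ n in l, ∀ᶠ y in 𝓝 (x n), HasFDerivAt (f n) (f' n y) y) : BJ l x (k + 1) f :=
  h0.succ (h.congr (hd.mono fun _ hn => hn.mono fun _ hy => hy.fderiv))

theorem const {c : ι → F} (hc : Bd l c) : BJ l x k fun n _ => c n :=
  ⟨Eventually.of_forall fun _ => contDiffAt_const, fun j _ => by
    rcases j with _ | j
    · exact hc.of_le (Eventually.of_forall fun n => by rw [norm_iteratedFDeriv_zero])
    · exact (Bd.const (0 : E [×(j + 1)]→L[ℝ] F)).congr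
        (Eventually.of_forall fun n => by rw [iteratedFDeriv_succ_const]; rfl)⟩

theorem cst (c : F) : BJ l x k fun _ _ => c := const (Bd.const c)

theorem add (h : BJ l x k f) (h' : BJ l x k f') : BJ l x k fun n y => f n y + f' n y :=
  ⟨by filter_upwards [h.sm, h'.sm] with n h1 h2 using h1.add h2, fun j hj =>
    ((h.bd j hj).add (h'.bd j hj)).congr (by
      filter_upwards [h.sm, h'.sm] with n h1 h2
      exact iteratedFDeriv_add_apply (h1.of_le (le_inf j)) (h2.of_le (le_inf j)))⟩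

theorem clm (L : F →L[ℝ] G) (h : BJ l x k f) : BJ l x k fun n y => L (f n y) :=
  ⟨h.sm.mono fun _ hn => L.contDiff.contDiffAt.comp _ hn, fun j hj => by
    obtain ⟨C, hC⟩ := h.bd j hj
    refine ⟨‖L‖ * C, ?_⟩
    filter_upwards [hC, h.sm] with n h1 h2
    exact (L.norm_iteratedFDeriv_comp_left h2 (le_inf j)).trans (by gcongr)⟩

theorem neg (h : BJ l x k f) : BJ l x k fun n y => -f n y :=
  h.clm (-ContinuousLinearMap.id ℝ F)

theorem sub (h : BJ l x k f) (h' : BJ l x k f') : BJ l x k fun n y => f n y - f' n y := by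
  simpa only [sub_eq_add_neg] using h.add h'.neg

theorem sum {α : Type*} (s : Finset α) {f : α → ι → E → F} (h : ∀ a ∈ s, BJ l x k (f a)) :
    BJ l x k fun n y => ∑ a ∈ s, f a n y := by
  classical
  induction s using Finset.induction_on with
  | empty => simpa using cst (0 : F)
  | insert a s ha ih =>
    simp only [Finset.sum_insert ha]
    exact (h a (Finset.mem_insert_self _ _)).add
      (ih fun b hb => h b (Finset.mem_insert_of_mem hb))

theorem id' (hx : Bd l x) : BJ l x k fun _ y => y := by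
  rcases k with _ | k
  · exact zero_of (Eventually.of_forall fun _ => contDiffAt_id) hx
  · exact (zero_of (Eventually.of_forall fun _ => contDiffAt_id) hx).succ_of
      (cst (ContinuousLinearMap.id ℝ E))
      (Eventually.of_forall fun _ => Eventually.of_forall fun y => hasFDerivAt_id y)

theorem bilin_aux (k : ℕ) : ∀ {F G H : Type} [NormedAddCommGroup F] [NormedSpace ℝ F]
    [NormedAddCommGroup G] [NormedSpace ℝ G] [NormedAddCommGroup H] [NormedSpace ℝ H]
    (B : F →L[ℝ] G →L[ℝ] H) {f : ι → E → F} {g : ι → E → G}, BJ l x k f → BJ l x k g →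
    BJ l x k fun n y => B (f n y) (g n y) := by
  have h0 : ∀ {F G H : Type} [NormedAddCommGroup F] [NormedSpace ℝ F]
      [NormedAddCommGroup G] [NormedSpace ℝ G] [NormedAddCommGroup H] [NormedSpace ℝ H]
      (B : F →L[ℝ] G →L[ℝ] H) {f : ι → E → F} {g : ι → E → G} {k : ℕ}, BJ l x k f → BJ l x k g →
      BJ l x 0 fun n y => B (f n y) (g n y) := by
    intro F G H _ _ _ _ _ _ B f g k hf hg
    refine zero_of ?_ (Bd.bilin B hf.val hg.val)
    filter_upwards [hf.sm, hg.sm] with n h1 h2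
    exact (B.contDiff.contDiffAt.comp _ h1).clm_apply h2
  induction k with
  | zero => intro F G H _ _ _ _ _ _ B f g hf hg; exact h0 B hf hg
  | succ k ih =>
    intro F G H _ _ _ _ _ _ B f g hf hg
    refine (h0 B hf hg).succ_of
      ((ih (B.precompR E) (hf.mono (Nat.le_succ k)) hg.fderiv).add
        (ih (B.precompL E) hf.fderiv (hg.mono (Nat.le_succ k)))) ?_
    filter_upwards [hf.diff, hg.diff] with n h1 h2
    filter_upwards [h1, h2] with y h3 h4
    exact B.hasFDerivAt_of_bilinear h3.hasFDerivAt h4.hasFDerivAt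

theorem bilin (B : F →L[ℝ] G →L[ℝ] H) (hf : BJ l x k f) (hg : BJ l x k g) :
    BJ l x k fun n y => B (f n y) (g n y) := bilin_aux k B hf hg

theorem clm_apply {A : ι → E → F →L[ℝ] G} (hA : BJ l x k A) (hf : BJ l x k f) :
    BJ l x k fun n y => A n y (f n y) :=
  bilin (ContinuousLinearMap.id ℝ (F →L[ℝ] G)) hA hf

theorem clm_comp {A : ι → E → G →L[ℝ] H} {B : ι → E → F →L[ℝ] G} (hA : BJ l x k A)
    (hB : BJ l x k B) : BJ l x k fun n y => (A n y).comp (B n y) :=
  bilin (ContinuousLinearMap.compL ℝ F G H) hA hB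

theorem smul {a : ι → E → ℝ} (ha : BJ l x k a) (hf : BJ l x k f) :
    BJ l x k fun n y => a n y • f n y :=
  bilin (ContinuousLinearMap.lsmul ℝ ℝ) ha hf

theorem mul {A : Type} [NormedRing A] [NormedAlgebra ℝ A] {a b : ι → E → A} (ha : BJ l x k a)
    (hb : BJ l x k b) : BJ l x k fun n y => a n y * b n y :=
  bilin (ContinuousLinearMap.mul ℝ A) ha hb

theorem prodMk (hf : BJ l x k f) (hg : BJ l x k g) : BJ l x k fun n y => (f n y, g n y) := by
  simpa using (hf.clm (ContinuousLinearMap.inl ℝ F G)).add (hg.clm (ContinuousLinearMap.inr ℝ F G))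

theorem fst {p : ι → E → F × G} (h : BJ l x k p) : BJ l x k fun n y => (p n y).1 :=
  h.clm (ContinuousLinearMap.fst ℝ F G)

theorem snd {p : ι → E → F × G} (h : BJ l x k p) : BJ l x k fun n y => (p n y).2 :=
  h.clm (ContinuousLinearMap.snd ℝ F G)

theorem apply {α : Type} [Fintype α] {p : ι → E → α → F} (h : BJ l x k p) (a : α) :
    BJ l x k fun n y => p n y a :=
  h.clm (ContinuousLinearMap.proj a)

theorem pi {α : Type} [Fintype α] {p : ι → E → α → F} (h : ∀ a, BJ l x k fun n y => p n y a) :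
    BJ l x k p := by
  classical
  have := sum Finset.univ (fun a _ => (h a).clm (ContinuousLinearMap.single ℝ (fun _ : α => F) a))
  refine this.congr (Eventually.of_forall fun n => Eventually.of_forall fun y => ?_)
  simp [Finset.univ_sum_single]

theorem flip {A : ι → E → F →L[ℝ] G →L[ℝ] H} (h : BJ l x k A) :
    BJ l x k fun n y => (A n y).flip :=
  clm (G := G →L[ℝ] F →L[ℝ] H) (flipL F G H) h

theorem comp_aux {f : ι → E → F} (hs : ∀ᶠ n in l, ContDiffAt ℝ ∞ (f n) (x n)) (k : ℕ) :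
    ∀ {G : Type} [NormedAddCommGroup G] [NormedSpace ℝ G] {g : ι → F → G},
    BJ l (fun n => f n (x n)) k g → BJ l x (k - 1) (fun n => _root_.fderiv ℝ (f n)) →
    BJ l x k fun n y => g n (f n y) := by
  have h0 : ∀ {G : Type} [NormedAddCommGroup G] [NormedSpace ℝ G] {g : ι → F → G} {k : ℕ},
      BJ l (fun n => f n (x n)) k g → BJ l x 0 fun n y => g n (f n y) := by
    intro G _ _ g k hg
    refine zero_of ?_ hg.val
    filter_upwards [hs, hg.sm] with n h1 h2 using h2.comp _ h1
  induction k with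
  | zero => intro G _ _ g hg _; exact h0 hg
  | succ k ih =>
    intro G _ _ g hg hf
    refine (h0 hg).succ_of ((ih hg.fderiv (hf.mono (by omega))).clm_comp hf) ?_
    filter_upwards [hs, hg.diff] with n h1 h2
    filter_upwards [h1.continuousAt.eventually h2,
      (h1.of_le (le_inf 1)).eventually (by simp)] with y h3 h4
    exact h3.hasFDerivAt.comp y (h4.differentiableAt (by simp)).hasFDerivAt

/-- composition: only the derivative of the inner map has to be bounded -/
theorem comp {f : ι → E → F} {g : ι → F → G} (hg : BJ l (fun n => f n (x n)) k g)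
    (hs : ∀ᶠ n in l, ContDiffAt ℝ ∞ (f n) (x n))
    (hf : BJ l x (k - 1) fun n => _root_.fderiv ℝ (f n)) : BJ l x k fun n y => g n (f n y) :=
  comp_aux hs k hg hf

/-- composition with a bounded family of affine maps -/
theorem comp_affine {g : ι → F → G} {L : ι → E →L[ℝ] F} {c : ι → F} (hL : Bd l L)
    (hg : BJ l (fun n => L n (x n) + c n) k g) : BJ l x k fun n y => g n (L n y + c n) :=
  comp (f := fun n y => L n y + c n) hg
    (Eventually.of_forall fun n => ((L n).contDiff.add contDiff_const).contDiffAt)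
    ((const hL).congr (Eventually.of_forall fun n => Eventually.of_forall fun y =>
      ((L n).hasFDerivAt.add_const (c n)).fderiv))

/-- a fixed function, smooth near a compact set -/
theorem of_compact {φ : E → F} {K : Set E} (hK : IsCompact K) (hφ : ∀ y ∈ K, ContDiffAt ℝ ∞ φ y)
    (hx : ∀ᶠ n in l, x n ∈ K) : BJ l x k fun _ => φ :=
  ⟨hx.mono fun _ hn => hφ _ hn, fun j _ => by
    obtain ⟨C, hC⟩ := hK.exists_bound_of_continuousOn (f := iteratedFDeriv ℝ j φ)
      fun y hy => ((hφ y hy).continuousAt_iteratedFDeriv (le_inf j)).continuousWithinAt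
    exact ⟨C, hx.mono fun _ hn => hC _ hn⟩⟩

/-- inverses in a Banach algebra -/
theorem inverse {A : Type} [NormedRing A] [NormedAlgebra ℝ A] [CompleteSpace A] {a : ι → E → A}
    (ha : BJ l x k a) (hu : ∀ᶠ n in l, IsUnit (a n (x n)))
    (hb : Bd l fun n => Ring.inverse (a n (x n))) :
    BJ l x k fun n y => Ring.inverse (a n y) := by
  have h0 : BJ l x 0 fun n y => Ring.inverse (a n y) := by
    refine zero_of ?_ hb
    filter_upwards [ha.sm, hu] with n h1 h2
    obtain ⟨u, hu⟩ := h2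
    exact (hu ▸ contDiffAt_ringInverse ℝ u : ContDiffAt ℝ ∞ Ring.inverse (a n (x n))).comp _ h1
  induction k with
  | zero => exact h0
  | succ k ih =>
    have h1 := ih (ha.mono (Nat.le_succ k))
    refine h0.succ_of ((bilin (-ContinuousLinearMap.mulLeftRight ℝ A) h1 h1).clm_comp ha.fderiv) ?_
    filter_upwards [ha.diff, ha.sm, hu] with n h2 h3 h4
    filter_upwards [h2, h3.continuousAt.eventually (Units.isOpen.mem_nhds h4)] with y h5 h6
    obtain ⟨u, hu⟩ := (h6 : IsUnit (a n y))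
    have := (hu ▸ hasFDerivAt_ringInverse (𝕜 := ℝ) u :
      HasFDerivAt Ring.inverse (-ContinuousLinearMap.mulLeftRight ℝ A ↑u⁻¹ ↑u⁻¹) (a n y)).comp y
        h5.hasFDerivAt
    rw [← hu, Ring.inverse_unit]
    exact this

end BJ

/-- uniform form on a set -/
theorem bj_prod_iff {U : Set E} {f : ι → E → F} :
    BJ (l ×ˢ 𝓟 U) Prod.snd k (fun q => f q.1) ↔
      (∀ᶠ n in l, ∀ y ∈ U, ContDiffAt ℝ ∞ (f n) y) ∧
      ∀ j ≤ k, ∃ C : ℝ, ∀ᶠ n in l, ∀ y ∈ U, ‖iteratedFDeriv ℝ j (f n) y‖ ≤ C := by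
  constructor
  · rintro ⟨h1, h2⟩
    refine ⟨eventually_prod_principal_iff.1 h1, fun j hj => ?_⟩
    obtain ⟨C, hC⟩ := h2 j hj
    exact ⟨C, eventually_prod_principal_iff.1 hC⟩
  · rintro ⟨h1, h2⟩
    refine ⟨eventually_prod_principal_iff.2 h1, fun j hj => ?_⟩
    obtain ⟨C, hC⟩ := h2 j hj
    exact ⟨C, eventually_prod_principal_iff.2 hC⟩

end Vale.Agent.P216G
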