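import Vale.Agent.P216R.Defs
import Vale.Agent.P216G.Bd

/-!
# Tensors as functions of a point and of `k` vectors: smoothness and multilinearity of `rmG`
-/

open Set Filter Topology Function
open scoped ContDiff

set_option maxSynthPendingDepth 3

noncomputable section

namespace Vale.Agent.P216G

open Vale.Agent.P219.RG Vale.Agent.P216R

variable {E : Type} [NormedAddCommGroup E] [NormedSpace ℝ E] {U : Set E} {k : ℕ}
  {T : E × (Fin k → E) → ℝ} {G : E → Bil E}

/-- `T` is a smooth covariant tensor on `U` -/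
structure IsT (U : Set E) (T : E × (Fin k → E) → ℝ) : Prop where
  sm : ∀ x ∈ U, ∀ v, ContDiffAt ℝ ∞ T (x, v)
  lin : ∀ x ∈ U, ∀ (v : Fin k → E) (b : Fin k) (a : ℝ) (y z : E),
    T (x, update v b (a • y + z)) = a * T (x, update v b y) + T (x, update v b z)

namespace IsT

theorem diff (h : IsT U T) {x : E} (hx : x ∈ U) (v : Fin k → E) : DifferentiableAt ℝ T (x, v) :=
  (h.sm x hx v).differentiableAt (by simp)

theorem zero (h : IsT U T) {x : E} (hx : x ∈ U) (v : Fin k → E) (b : Fin k) :
    T (x, update v b 0) = 0 := by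
  have := h.lin x hx v b 1 0 0
  simpa using this

theorem smul (h : IsT U T) {x : E} (hx : x ∈ U) (v : Fin k → E) (b : Fin k) (a : ℝ) (y : E) :
    T (x, update v b (a • y)) = a * T (x, update v b y) := by
  have := h.lin x hx v b a y 0
  rwa [add_zero, h.zero hx, add_zero] at this

theorem add (h : IsT U T) {x : E} (hx : x ∈ U) (v : Fin k → E) (b : Fin k) (y z : E) :
    T (x, update v b (y + z)) = T (x, update v b y) + T (x, update v b z) := by
  simpa using h.lin x hx v b 1 y z

theorem neg (h : IsT U T) {x : E} (hx : x ∈ U) (v : Fin k → E) (b : Fin k) (y : E) :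
    T (x, update v b (-y)) = -T (x, update v b y) := by
  simpa using h.smul hx v b (-1) y

theorem sum (h : IsT U T) {x : E} (hx : x ∈ U) (v : Fin k → E) (b : Fin k) {α : Type*}
    (s : Finset α) (a : α → ℝ) (y : α → E) :
    T (x, update v b (∑ i ∈ s, a i • y i)) = ∑ i ∈ s, a i * T (x, update v b (y i)) := by
  classical
  induction s using Finset.induction_on with
  | empty => simpa using h.zero hx v b
  | insert i s hi ih => rw [Finset.sum_insert hi, Finset.sum_insert hi, h.lin x hx, ih]

/-- the tensor at a point as a multilinear map -/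
def toML (h : IsT U T) {x : E} (hx : x ∈ U) : MultilinearMap ℝ (fun _ : Fin k => E) ℝ :=
  MultilinearMap.mk' (fun v => T (x, v)) (fun v b y z => h.add hx v b y z)
    (fun v b a y => h.smul hx v b a y)

theorem toML_apply (h : IsT U T) {x : E} (hx : x ∈ U) (v : Fin k → E) :
    h.toML hx v = T (x, v) := rfl

/-- the vertical derivative -/
theorem fderiv_vert (h : IsT U T) {x : E} (hx : x ∈ U) (v η : Fin k → E) :
    fderiv ℝ T (x, v) (0, η) = ∑ b, T (x, update v b (η b)) := by
  have h1 : ((0 : E), η) = ∑ b, ((0 : E), (Pi.single b (η b) : Fin k → E)) := by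
    rw [Prod.ext_iff, Prod.fst_sum, Prod.snd_sum]
    simp [Finset.univ_sum_single]
  rw [h1, map_sum]
  refine Finset.sum_congr rfl fun b _ => ?_
  have h2 : HasDerivAt (fun s : ℝ => ((x, v) : E × (Fin k → E)) + s • ((0 : E), Pi.single b (η b)))
      ((0 : E), Pi.single b (η b)) 0 := by
    simpa using ((hasDerivAt_id (0 : ℝ)).smul_const
      (((0 : E), Pi.single b (η b)) : E × (Fin k → E))).const_add (x, v)
  have h3 := HasFDerivAt.comp_hasDerivAt_of_eq (0 : ℝ) (h.diff hx v).hasFDerivAt h2 (by simp)
  have h4 : (T ∘ fun s : ℝ => ((x, v) : E × (Fin k → E)) + s • ((0 : E), Pi.single b (η b))) =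
      fun s => s * T (x, update v b (η b)) + T (x, v) := by
    funext s
    have : v + s • (Pi.single b (η b) : Fin k → E) = update v b (s • η b + v b) := by
      funext c
      by_cases hc : c = b
      · subst hc; simp [add_comm]
      · simp [hc]
    simp only [comp_apply, Prod.smul_mk, smul_zero, Prod.mk_add_mk, add_zero]
    rw [this, h.lin x hx, update_eq_self]
  rw [h4] at h3
  simpa using h3.unique (((hasDerivAt_id (0 : ℝ)).mul_const _).add_const _)

theorem fderiv_apply (h : IsT U T) {x : E} (hx : x ∈ U) (v η : Fin k → E) (ξ : E) :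
    fderiv ℝ T (x, v) (ξ, η) = fderiv ℝ T (x, v) (ξ, 0) + ∑ b, T (x, update v b (η b)) := by
  rw [← h.fderiv_vert hx, ← map_add]; simp

theorem hasFDerivAt_base (h : IsT U T) {x : E} (hx : x ∈ U) (v : Fin k → E) :
    HasFDerivAt (fun y => T (y, v))
      ((fderiv ℝ T (x, v)).comp (ContinuousLinearMap.inl ℝ E (Fin k → E))) x :=
  (h.diff hx v).hasFDerivAt.comp x (hasFDerivAt_prodMk_left x v)

theorem fderiv_base_lin (hU : IsOpen U) (h : IsT U T) {x : E} (hx : x ∈ U) (v : Fin k → E)
    (b : Fin k) (a : ℝ) (y z ξ : E) :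
    fderiv ℝ T (x, update v b (a • y + z)) (ξ, 0) =
      a * fderiv ℝ T (x, update v b y) (ξ, 0) + fderiv ℝ T (x, update v b z) (ξ, 0) := by
  have h1 := ((h.hasFDerivAt_base hx (update v b y)).const_mul a).add
    (h.hasFDerivAt_base hx (update v b z))
  have h2 := (h.hasFDerivAt_base hx (update v b (a • y + z))).unique
    (h1.congr_of_eventuallyEq (by
      filter_upwards [hU.mem_nhds hx] with w hw using h.lin w hw v b a y z))
  simpa using congrArg (fun L : E →L[ℝ] ℝ => L ξ) h2

/-- the covariant derivative written out -/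
theorem nab_eq (h : IsT U T) {x : E} (hx : x ∈ U) (v : Fin k → E) (ξ : E) :
    nab G T (x, Fin.cons ξ v) =
      fderiv ℝ T (x, v) (ξ, 0) - ∑ b, T (x, update v b (chris G x ξ (v b))) := by
  simp only [nab, Fin.tail_cons, Fin.cons_zero, Fin.cons_succ]
  rw [h.fderiv_apply hx, sub_eq_add_neg, ← Finset.sum_neg_distrib]
  simp only [h.neg hx]

/-- derivative of a tensor along a moving point and moving vectors -/
theorem fderiv_eq (h : IsT U T) {x : E} (hx : x ∈ U) (v η : Fin k → E) (ξ : E) :
    fderiv ℝ T (x, v) (ξ, η) = nab G T (x, Fin.cons ξ v) +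
      ∑ b, T (x, update v b (η b + chris G x ξ (v b))) := by
  rw [h.fderiv_apply hx, h.nab_eq hx]
  simp only [h.add hx, Finset.sum_add_distrib]
  ring

theorem nab [FiniteDimensional ℝ E] (hG : IsMetricOn G U) (h : IsT U T) : IsT U (nab G T) := by
  refine ⟨fun x hx v => ?_, fun x hx v b a y z => ?_⟩
  · have h1 : ContDiffAt ℝ ∞ (fun p : E × (Fin (k + 1) → E) => (p.1, Fin.tail p.2)) (x, v) :=
      contDiffAt_fst.prodMk (contDiffAt_pi.2 fun b => by unfold Fin.tail; fun_prop)
    have h2 := ContDiffAt.comp (x, v) (g := fderiv ℝ T)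
      ((h.sm x hx (Fin.tail v)).fderiv_right (m := ∞) (by simp)) h1
    have h3 : ContDiffAt ℝ ∞ (fun p : E × (Fin (k + 1) → E) => chrisB G p.1) (x, v) :=
      ContDiffAt.comp (x, v) (g := chrisB G) (hG.contDiffAt_chrisB hx) contDiffAt_fst
    unfold P216R.nab
    refine h2.clm_apply ((by fun_prop : ContDiffAt ℝ ∞ (fun p : E × (Fin (k + 1) → E) => p.2 0)
      (x, v)).prodMk (contDiffAt_pi.2 fun b => ?_))
    simp only [← chrisB_apply]
    exact ((h3.clm_apply (by fun_prop)).clm_apply (by fun_prop)).neg
  · obtain ⟨ξ, v, rfl⟩ : ∃ ξ w, v = Fin.cons ξ w := ⟨v 0, Fin.tail v, (Fin.cons_self_tail v).symm⟩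
    refine Fin.cases ?_ (fun b => ?_) b
    · simp only [Fin.update_cons_zero, h.nab_eq hx, ← chrisB_apply, map_add, map_smul,
        ContinuousLinearMap.add_apply, ContinuousLinearMap.smul_apply, h.lin x hx,
        Finset.sum_add_distrib, ← Finset.mul_sum]
      have : ((a • y + z, 0) : E × (Fin k → E)) = a • (y, 0) + (z, 0) := by simp
      rw [this, map_add, map_smul, smul_eq_mul]
      ring
    · simp only [← Fin.cons_update, h.nab_eq hx, h.fderiv_base_lin hG.isOpen hx]
      have key : ∀ c, T (x, update (update v b (a • y + z)) c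
          (chris G x ξ (update v b (a • y + z) c))) =
          a * T (x, update (update v b y) c (chris G x ξ (update v b y c))) +
            T (x, update (update v b z) c (chris G x ξ (update v b z c))) := by
        intro c
        by_cases hc : c = b
        · subst hc
          simp only [update_self, update_idem, ← chrisB_apply, map_add, map_smul, h.lin x hx]
        · simp only [update_of_ne hc, update_comm (Ne.symm hc), h.lin x hx]
      simp only [key, Finset.sum_add_distrib, ← Finset.mul_sum]
      ring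

end IsT

theorem contDiffAt_flip {F H K : Type} [NormedAddCommGroup F] [NormedSpace ℝ F]
    [NormedAddCommGroup H] [NormedSpace ℝ H] [NormedAddCommGroup K] [NormedSpace ℝ K]
    {f : E → F →L[ℝ] H →L[ℝ] K} {x : E} (h : ContDiffAt ℝ ∞ f x) :
    ContDiffAt ℝ ∞ (fun u => (f u).flip) x :=
  ContDiffAt.comp x (g := flipL F H K) (flipL F H K).contDiff.contDiffAt h

theorem contDiffAt_curvB [FiniteDimensional ℝ E] (hG : IsMetricOn G U) {x : E} (hx : x ∈ U) :
    ContDiffAt ℝ ∞ (curvB G) x := by
  have h1 := hG.contDiffAt_chrisB hx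
  have h2 : ContDiffAt ℝ ∞ (fun u => fderiv ℝ (chrisB G) u +
      (ContinuousLinearMap.compL ℝ E E E).bilinearComp (chrisB G u) (chrisB G u)) x := by
    refine (h1.fderiv_right (m := ∞) (by simp)).add ?_
    exact contDiffAt_flip ((contDiffAt_flip (contDiffAt_const.clm_comp h1)).clm_comp h1)
  unfold curvB
  exact h2.sub (contDiffAt_flip h2)

theorem rmG_zero [FiniteDimensional ℝ E] (hG : IsMetricOn G U) {x : E} (hx : x ∈ U)
    (v : Fin 4 → E) : rmG G 0 (x, v) = G x (curvB G x (v 0) (v 1) (v 2)) (v 3) := by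
  rw [curvB_apply hG hx]; rfl

theorem isT_rmG [FiniteDimensional ℝ E] (hG : IsMetricOn G U) (k : ℕ) : IsT U (rmG G k) := by
  induction k with
  | succ k ih => exact ih.nab hG
  | zero =>
    refine ⟨fun x hx v => ?_, fun x hx v b a y z => ?_⟩
    · have h1 : ContDiffAt ℝ ∞ (fun p : E × (Fin 4 → E) =>
          G p.1 (curvB G p.1 (p.2 0) (p.2 1) (p.2 2)) (p.2 3)) (x, v) := by
        have h2 : ContDiffAt ℝ ∞ (fun p : E × (Fin 4 → E) => G p.1) (x, v) :=
          ContDiffAt.comp (x, v) (g := G) (hG.contDiffAt hx) contDiffAt_fst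
        have h3 : ContDiffAt ℝ ∞ (fun p : E × (Fin 4 → E) => curvB G p.1) (x, v) :=
          ContDiffAt.comp (x, v) (g := curvB G) (contDiffAt_curvB hG hx) contDiffAt_fst
        exact (h2.clm_apply (((h3.clm_apply (by fun_prop)).clm_apply (by fun_prop)).clm_apply
          (by fun_prop))).clm_apply (by fun_prop)
      refine h1.congr_of_eventuallyEq ?_
      filter_upwards [continuous_fst.continuousAt.eventually (hG.isOpen.mem_nhds hx)] with p hp
      exact rmG_zero hG hp p.2
    · simp only [rmG_zero hG hx]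
      fin_cases b <;> simp [update]

end Vale.Agent.P216G
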