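import Vale.Agent.P216G.Bd
import Mathlib.Analysis.ODE.Gronwall
import Mathlib.Analysis.Calculus.FDeriv.Symmetric
import Mathlib.Analysis.Calculus.Deriv.Shift
import Mathlib.Analysis.Calculus.TangentCone.Prod

/-!
# Bounded jets for solutions of linear ODEs with parameters
-/

open Set Filter Topology
open scoped ContDiff

noncomputable section

namespace Vale.Agent.P216G

variable {ι : Type*} {l : Filter ι} {E : Type} [NormedAddCommGroup E] [NormedSpace ℝ E]
  {W : Type} [NormedAddCommGroup W] [NormedSpace ℝ W]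

theorem gronwallBound_le {δ K ε x : ℝ} (hK : 0 ≤ K) (hε : 0 ≤ ε) (hx : 0 ≤ x) :
    gronwallBound δ K ε x ≤ δ * Real.exp (K * x) + ε * x * Real.exp (K * x) := by
  rcases hK.eq_or_lt with rfl | hK
  · simp [gronwallBound_K0]
  · rw [gronwallBound_of_K_ne_0 hK.ne']
    have h1 : Real.exp (K * x) - 1 ≤ K * x * Real.exp (K * x) := by
      have h2 := Real.add_one_le_exp (-(K * x))
      have h3 : Real.exp (-(K * x)) * Real.exp (K * x) = 1 := by rw [← Real.exp_add]; simp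
      nlinarith [Real.exp_pos (K * x)]
    have h4 : ε / K * (Real.exp (K * x) - 1) ≤ ε / K * (K * x * Real.exp (K * x)) := by gcongr
    have h5 : ε / K * (K * x * Real.exp (K * x)) = ε * x * Real.exp (K * x) := by field_simp
    simp only
    linarith

theorem gron_right {f f' : ℝ → W} {a b K C : ℝ} (hab : a ≤ b) (hK : 0 ≤ K) (hC : 0 ≤ C)
    (hf : ContinuousOn f (Icc a b)) (hd : ∀ s ∈ Ioo a b, HasDerivAt f (f' s) s)
    (hb : ∀ s ∈ Ioo a b, ‖f' s‖ ≤ K * ‖f s‖ + C) :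
    ‖f b‖ ≤ (‖f a‖ + C * (b - a)) * Real.exp (K * (b - a)) := by
  rcases hab.eq_or_lt with rfl | hab
  · simp
  have h1 : ∀ a' ∈ Ioo a b, ‖f b‖ ≤ (‖f a'‖ + C * (b - a)) * Real.exp (K * (b - a)) := by
    intro a' ha'
    have h2 := norm_le_gronwallBound_of_norm_deriv_right_le (f := f) (f' := f') (a := a') (b := b)
      (δ := ‖f a'‖) (K := K) (ε := C) (hf.mono (Icc_subset_Icc_left ha'.1.le))
      (fun s hs => (hd s ⟨ha'.1.trans_le hs.1, hs.2⟩).hasDerivWithinAt) le_rfl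
      (fun s hs => hb s ⟨ha'.1.trans_le hs.1, hs.2⟩) b ⟨ha'.2.le, le_rfl⟩
    have h3 := gronwallBound_le (δ := ‖f a'‖) hK hC (sub_nonneg.2 ha'.2.le)
    have h4 : b - a' ≤ b - a := by linarith [ha'.1]
    have h5 : 0 ≤ b - a' := sub_nonneg.2 ha'.2.le
    calc ‖f b‖ ≤ (‖f a'‖ + C * (b - a')) * Real.exp (K * (b - a')) := by linarith
      _ ≤ _ := by gcongr
  have h2 : Tendsto f (𝓝[Ioo a b] a) (𝓝 (f a)) :=
    (hf a ⟨le_rfl, hab.le⟩).tendsto.mono_left (nhdsWithin_mono _ Ioo_subset_Icc_self)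
  have : (𝓝[Ioo a b] a).NeBot := left_nhdsWithin_Ioo_neBot hab
  exact ge_of_tendsto (((h2.norm.add_const _).mul_const _))
    (eventually_nhdsWithin_of_forall h1)

/-- two-sided Gronwall inequality on an interval, derivative only at interior points -/
theorem gron {f f' : ℝ → W} {I : Set ℝ} (hI : I.OrdConnected) {a b K C : ℝ} (ha : a ∈ I)
    (hb : b ∈ I) (hK : 0 ≤ K) (hC : 0 ≤ C) (hf : ContinuousOn f I)
    (hd : ∀ s ∈ interior I, HasDerivAt f (f' s) s)
    (hbd : ∀ s ∈ interior I, ‖f' s‖ ≤ K * ‖f s‖ + C) :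
    ‖f b‖ ≤ (‖f a‖ + C * |b - a|) * Real.exp (K * |b - a|) := by
  have hint : ∀ {a b : ℝ}, a ∈ I → b ∈ I → Ioo a b ⊆ interior I := fun ha hb =>
    interior_maximal (Ioo_subset_Icc_self.trans (hI.out ha hb)) isOpen_Ioo
  rcases le_total a b with hab | hab
  · rw [abs_of_nonneg (sub_nonneg.2 hab)]
    exact gron_right hab hK hC (hf.mono (hI.out ha hb)) (fun s hs => hd s (hint ha hb hs))
      fun s hs => hbd s (hint ha hb hs)
  · have hm : ∀ s ∈ Ioo (-a) (-b), -s ∈ interior I := fun s hs =>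
      hint hb ha ⟨by linarith [hs.2], by linarith [hs.1]⟩
    have := gron_right (f := fun s => f (-s)) (f' := fun s => -f' (-s)) (a := -a) (b := -b)
      (neg_le_neg hab) hK hC
      (hf.comp continuous_neg.continuousOn fun s hs =>
        hI.out hb ha ⟨by linarith [hs.2], by linarith [hs.1]⟩)
      (fun s hs => by
        simpa [Function.comp_def] using (hd _ (hm s hs)).scomp s (hasDerivAt_neg s))
      (fun s hs => by simpa using hbd _ (hm s hs))
    rw [abs_of_nonpos (sub_nonpos.2 hab)]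
    simpa [show -b + a = -(b - a) by ring] using this

/-- derivative in the second variable commutes with the derivative in the first one -/
theorem hasDerivAt_fderiv_snd {G : ℝ × E → W} {s : ℝ} {x : E} (hG : ContDiffAt ℝ ∞ G (s, x))
    {Z : E → W} (hZ : ∀ᶠ y in 𝓝 x, HasDerivAt (fun t => G (t, y)) (Z y) s) :
    HasDerivAt (fun t => fderiv ℝ (fun y => G (t, y)) x) (fderiv ℝ Z x) s := by
  have h2 : ContDiffAt ℝ 2 G (s, x) := hG.of_le (le_inf 2)
  have hev : ∀ᶠ p in 𝓝 (s, x), DifferentiableAt ℝ G p :=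
    ((hG.of_le (le_inf 1)).eventually (by simp)).mono fun _ h => h.differentiableAt (by simp)
  have hD : HasFDerivAt (fderiv ℝ G) (fderiv ℝ (fderiv ℝ G) (s, x)) (s, x) :=
    ((h2.fderiv_right (m := 1) (by norm_num)).differentiableAt (by simp)).hasFDerivAt
  have hs := h2.isSymmSndFDerivAt (by simp)
  have c1 : ContinuousAt (fun t : ℝ => (t, x)) s := by fun_prop
  have c2 : ContinuousAt (fun y : E => (s, y)) x := by fun_prop
  have e1 : (fun t => fderiv ℝ (fun y => G (t, y)) x) =ᶠ[𝓝 s]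
      fun t => (fderiv ℝ G (t, x)).comp (ContinuousLinearMap.inr ℝ ℝ E) := by
    filter_upwards [c1.eventually hev] with t ht
    exact (ht.hasFDerivAt.comp x (hasFDerivAt_prodMk_right t x)).fderiv
  have e2 : Z =ᶠ[𝓝 x] fun y => fderiv ℝ G (s, y) (1, 0) := by
    filter_upwards [c2.eventually hev, hZ] with y hy hy'
    exact hy'.unique (hy.hasFDerivAt.comp_hasDerivAt s
      ((hasDerivAt_id s).prodMk (hasDerivAt_const s y)))
  have d1 : HasDerivAt (fun t => fderiv ℝ G (t, x)) (fderiv ℝ (fderiv ℝ G) (s, x) (1, 0)) s :=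
    hD.comp_hasDerivAt s ((hasDerivAt_id s).prodMk (hasDerivAt_const s x))
  have d2 : HasFDerivAt (fun y => fderiv ℝ G (s, y) (1, 0))
      ((fderiv ℝ (fderiv ℝ G) (s, x) (1, 0)).comp (ContinuousLinearMap.inr ℝ ℝ E)) x := by
    have := (hD.comp x (hasFDerivAt_prodMk_right s x)).clm_apply (hasFDerivAt_const (1, 0) x)
    refine this.congr_fderiv ?_
    ext ξ
    simpa using hs (0, ξ) (1, 0)
  rw [e2.fderiv_eq, d2.fderiv]
  refine HasDerivAt.congr_of_eventuallyEq ?_ e1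
  simpa using d1.clm_comp (hasDerivAt_const s (ContinuousLinearMap.inr ℝ ℝ E))

theorem contDiffOn_fderiv_snd {G : ℝ × E → W} {I : Set ℝ} {U : Set E} (hI : UniqueDiffOn ℝ I)
    (hU : IsOpen U) (hG : ContDiffOn ℝ ∞ G (I ×ˢ U)) :
    ContDiffOn ℝ ∞ (fun p : ℝ × E => fderiv ℝ (fun y => G (p.1, y)) p.2) (I ×ˢ U) := by
  have h1 := (hG.fderivWithin (m := ∞) (UniqueDiffOn.prod hI hU.uniqueDiffOn) (by simp)).clm_comp
    (contDiffOn_const (c := ContinuousLinearMap.inr ℝ ℝ E))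
  refine h1.congr fun p hp => ?_
  have h2 := (hG.differentiableOn (by simp) p hp).hasFDerivWithinAt
  have h3 := h2.comp p.2 (hasFDerivAt_prodMk_right p.1 p.2).hasFDerivWithinAt (s := U)
    fun y hy => mk_mem_prod hp.1 hy
  exact (h3.hasFDerivAt (hU.mem_nhds hp.2)).fderiv

theorem contDiffAt_snd {G : ℝ × E → W} {I : Set ℝ} {U : Set E} (hU : IsOpen U)
    (hG : ContDiffOn ℝ ∞ G (I ×ˢ U)) {s : ℝ} (hs : s ∈ I) {x : E} (hx : x ∈ U) :
    ContDiffAt ℝ ∞ (fun y => G (s, y)) x :=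
  ((hG.comp (contDiff_const.prodMk contDiff_id).contDiffOn (s := U)
    fun _ hy => mk_mem_prod hs hy) x hx).contDiffAt (hU.mem_nhds hx)

/-- bounded space jets, uniformly on `I × U` -/
def BT (l : Filter ι) (I : Set ℝ) (U : Set E) (k : ℕ) (Y : ι → ℝ → E → W) : Prop :=
  BJ (l ×ˢ 𝓟 (I ×ˢ U)) (fun q => q.2.2) k fun q => Y q.1 q.2.1

/-- bounded jets, uniformly on `U` -/
def BU (l : Filter ι) (U : Set E) (k : ℕ) (Y : ι → E → W) : Prop :=
  BJ (l ×ˢ 𝓟 U) Prod.snd k fun q => Y q.1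

theorem BU.toBT {U : Set E} {k : ℕ} {Y : ι → E → W} (h : BU l U k Y) (I : Set ℝ) :
    BT l I U k fun n _ => Y n :=
  BJ.comp_tendsto h (φ := fun q : ι × ℝ × E => (q.1, q.2.2))
    (tendsto_fst.prodMk (tendsto_principal.2 (eventually_prod_principal_iff.2
      (Eventually.of_forall fun _ _ hp => hp.2))))

theorem BT.slice {I : Set ℝ} {U : Set E} {k : ℕ} {Y : ι → ℝ → E → W} (h : BT l I U k Y)
    {s : ι → ℝ} (hs : ∀ᶠ n in l, s n ∈ I) : BU l U k fun n => Y n (s n) :=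
  BJ.comp_tendsto h (φ := fun q : ι × E => (q.1, s q.1, q.2))
    (tendsto_fst.prodMk (tendsto_principal.2 (eventually_prod_principal_iff.2
      (hs.mono fun _ hn _ hp => mk_mem_prod hn hp))))

theorem ev_prod {α : Type*} {S : Set α} {p : ι × α → Prop} :
    (∀ᶠ q in l ×ˢ 𝓟 S, p q) ↔ ∀ᶠ n in l, ∀ y ∈ S, p (n, y) := eventually_prod_principal_iff

/-- Linear ODE `Y' = L Y + c` in the first variable with bounded space jets of the data. -/
theorem ode {I : Set ℝ} {U : Set E} (hI : I.OrdConnected) (hI' : UniqueDiffOn ℝ I)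
    (hU : IsOpen U) {s₀ : ι → ℝ} (hs₀ : ∀ᶠ n in l, s₀ n ∈ I) {T : ℝ}
    (hT : ∀ s ∈ I, ∀ t ∈ I, |s - t| ≤ T) (k : ℕ) :
    ∀ {W : Type} [NormedAddCommGroup W] [NormedSpace ℝ W] {Y c : ι → ℝ → E → W}
      {L : ι → ℝ → E → W →L[ℝ] W},
      (∀ᶠ n in l, ContDiffOn ℝ ∞ (fun p : ℝ × E => Y n p.1 p.2) (I ×ˢ U)) →
      (∀ᶠ n in l, ∀ s ∈ interior I, ∀ x ∈ U,
        HasDerivAt (fun t => Y n t x) (L n s x (Y n s x) + c n s x) s) →
      BT l I U k L → BT l I U k c → BU l U k (fun n => Y n (s₀ n)) → BT l I U k Y := by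
  have h0 : ∀ {W : Type} [NormedAddCommGroup W] [NormedSpace ℝ W] {Y c : ι → ℝ → E → W}
      {L : ι → ℝ → E → W →L[ℝ] W} {k : ℕ},
      (∀ᶠ n in l, ContDiffOn ℝ ∞ (fun p : ℝ × E => Y n p.1 p.2) (I ×ˢ U)) →
      (∀ᶠ n in l, ∀ s ∈ interior I, ∀ x ∈ U,
        HasDerivAt (fun t => Y n t x) (L n s x (Y n s x) + c n s x) s) →
      BT l I U k L → BT l I U k c → BU l U k (fun n => Y n (s₀ n)) → BT l I U 0 Y := by
    intro W _ _ Y c L k hY hd hL hc hi
    refine BJ.zero_of (ev_prod.2 (hY.mono fun n hn p hp => contDiffAt_snd hU hn hp.1 hp.2)) ?_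
    obtain ⟨K, hK0, hK⟩ := hL.val.nonneg
    obtain ⟨C, hC0, hC⟩ := hc.val.nonneg
    obtain ⟨D, hD⟩ := hi.val
    refine ⟨(D + C * T) * Real.exp (K * T), ev_prod.2 ?_⟩
    filter_upwards [hY, hd, ev_prod.1 hK, ev_prod.1 hC, ev_prod.1 hD, hs₀]
      with n h1 h2 h3 h4 h5 h6 p hp
    have h7 := gron (f := fun t => Y n t p.2) hI h6 hp.1 hK0 hC0
      (h1.continuousOn.comp (continuous_id.prodMk continuous_const).continuousOn
        fun t ht => mk_mem_prod ht hp.2)
      (fun s hs => h2 s hs p.2 hp.2) (fun s hs => by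
        have h8 := h3 (s, p.2) (mk_mem_prod (interior_subset hs) hp.2)
        have h9 := h4 (s, p.2) (mk_mem_prod (interior_subset hs) hp.2)
        exact norm_add_le_of_le (((L n s p.2).le_opNorm _).trans (by gcongr)) h9)
    have h8 := hT _ hp.1 _ h6
    have h9 := h5 p.2 hp.2
    have h10 := (norm_nonneg _).trans h9
    have h11 := (abs_nonneg _).trans h8
    exact h7.trans (by gcongr)
  induction k with
  | zero => intro W _ _ Y c L hY hd hL hc hi; exact h0 hY hd hL hc hi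
  | succ k ih =>
    intro W _ _ Y c L hY hd hL hc hi
    have hYk : BT l I U k Y := ih hY hd (hL.mono (Nat.le_succ k)) (hc.mono (Nat.le_succ k))
      (hi.mono (Nat.le_succ k))
    refine BJ.succ (h0 hY hd hL hc hi) ?_
    refine ih (Y := fun n s x => fderiv ℝ (Y n s) x)
      (L := fun n s x => ContinuousLinearMap.compL ℝ E W W (L n s x))
      (c := fun n s x => (fderiv ℝ (L n s) x).flip (Y n s x) + fderiv ℝ (c n s) x)
      (hY.mono fun n hn => contDiffOn_fderiv_snd hI' hU hn) ?_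
      ((hL.mono (Nat.le_succ k)).clm _) ((hL.fderiv.flip.clm_apply hYk).add hc.fderiv) hi.fderiv
    filter_upwards [hY, hd, ev_prod.1 hL.sm, ev_prod.1 hc.sm] with n h1 h2 h3 h4 s hs x hx
    have hp : (s, x) ∈ I ×ˢ U := mk_mem_prod (interior_subset hs) hx
    have h5 : ContDiffAt ℝ ∞ (fun p : ℝ × E => Y n p.1 p.2) (s, x) :=
      (h1 _ hp).contDiffAt (prod_mem_nhds (mem_interior_iff_mem_nhds.1 hs) (hU.mem_nhds hx))
    have h6 := hasDerivAt_fderiv_snd h5 (Z := fun y => L n s y (Y n s y) + c n s y)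
      (by filter_upwards [hU.mem_nhds hx] with y hy using h2 s hs y hy)
    have h7 := (((h3 _ hp).differentiableAt (by simp)).hasFDerivAt.clm_apply
      ((contDiffAt_snd hU h1 hp.1 hx).differentiableAt (by simp)).hasFDerivAt).add
      ((h4 _ hp).differentiableAt (by simp)).hasFDerivAt
    refine h6.congr_deriv ?_
    refine h7.fderiv.trans ?_
    simp [add_assoc]

end Vale.Agent.P216G
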