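import Vale.Agent.P216SG.Nkf
import Vale.Agent.P216FI.NeckM
import Vale.Agent.P216KV.RT
import Vale.Agent.P216BF.Scal
import Vale.Agent.P216DC.Lim
import Vale.Agent.P216EO.Pp

/-!
# P216G: windows about centres of necks, bounded curvature at bounded distance in the region
-/

open scoped Manifold ContDiff Topology ENNReal
open Set Filter

set_option maxSynthPendingDepth 3
set_option linter.unusedSectionVars false

noncomputable section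

namespace Vale.Agent.P216G

open Vale.Agent.P216R Vale.Agent.P216DC Vale.Agent.P216SG Vale.Agent.P216BF Vale.Agent.P216FA

section reg

variable {M : Type} [TopologicalSpace M] [ChartedSpace E3 M] [IsManifold 𝓘(ℝ, E3) ∞ M]
  [MeasurableSpace M] {F : Dat M} {P : Cs} {r τ r' τ' s A A' : ℝ} {W : Set M} {y z : M}

theorem reg_mono (h : F.Reg r τ W s y) (hr : r ≤ r') (hτ : τ ≤ τ') : F.Reg r' τ' W s y :=
  ⟨h.prec, by linarith [h.le], h.mem, by linarith [h.dle]⟩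

theorem ctl_mono (h : F.Ctl P A) (h0 : 0 < A') (hA : A' ≤ A) : F.Ctl P A' where
  bas := h.bas
  env :=
    { init := by linarith [h.env.init]
      pin := fun W s hW hs => P216EO.pin_mono (h.bas.sf.met hW)
        (h.env.pin W s hW ⟨by linarith [hs.1], hs.2⟩) h0 hA
      d1 := fun W s y H => h.env.d1 W s y (reg_mono H hA hA)
      d2 := fun W s y H ρ hρ σ hσ h1 => h.env.d2 W s y (reg_mono H hA hA) ρ ⟨hρ.1, hρ.2.trans hA⟩
        σ hσ (by linarith)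
      nc := fun W s y H ρ hρ => h.env.nc W s y (reg_mono H hA hA) ρ ⟨hρ.1, hρ.2.trans hA⟩ }
  cn := fun W s y H => h.cn W s y (reg_mono H hA hA)

theorem ctl_sl (h : F.Ctl P A) (H : F.Reg r τ W s y) (hτ : τ ≤ A) :
    Sl F.b F.d F.T₀ F.T₁ W s ∧ s ≤ F.t :=
  P216EO.prec_sl H.prec h.bas.sl (by linarith [h.env.init, H.le])

/-- the region contains the balls about its points -/
theorem ctl_reg (h : F.Ctl P A) (H : F.Reg r τ W s y) (hr : r ≤ A) (hτ : τ ≤ A)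
    (hz : z ∈ bl (F.g s) W y r') : F.Reg (r + r') τ W s z :=
  ⟨H.prec, H.le, bl_subset hz, by
    linarith [h.env.d1 W s y (reg_mono H hr hτ) z (bl_subset hz), H.dle, (mem_bl_iff.1 hz).2]⟩

theorem sg_eq {g : Ten E3 M} {σ : ℝ} (h0 : 0 < σ) (h : σ ^ 2 * Sc g y = 1) :
    P216FA.sg g y = σ := by
  rw [P216FA.sg, show Sc g y = σ⁻¹ ^ 2 by field_simp; linarith, Real.sqrt_sq (by positivity),
    inv_inv]

theorem sg_sq {g : Ten E3 M} (h : 0 < Sc g y) :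
    0 < P216FA.sg g y ∧ P216FA.sg g y ^ 2 * Sc g y = 1 :=
  ⟨inv_pos.2 (Real.sqrt_pos.2 h), by rw [P216FA.sg, inv_pow, Real.sq_sqrt h.le, inv_mul_cancel₀ h.ne']⟩

end reg

/-- the time derivative of the scalar curvature at points with canonical neighbourhoods -/
theorem exists_dt (C : ℝ) : ∃ C' > 0, ∀ (X : Mf) (g : ℝ → Ten E3 X.M) (V W : Set X.M)
    (a b τ A : ℝ) (z : X.M), RF g (Icc a b) V → z ∈ V → τ ∈ Ioo a b → DT C A (g τ) W z →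
    |deriv (fun s => Sc (g s) z) τ| ≤ C' * Sc (g τ) z ^ 2 := by
  obtain ⟨c, hc, H⟩ := P216KV.rt
  refine ⟨c * (|C| + C ^ 2 + 1), by positivity, fun X g V W a b τ A z h hz hτ hD => ?_⟩
  have := H X.M g _ V z τ _ _ h (convex_Icc a b) ⟨τ, by simpa using hτ⟩ (Ioo_subset_Icc_self hτ) hz
    hD.r0 hD.r2
  rw [derivWithin_of_mem_nhds (Icc_mem_nhds hτ.1 hτ.2)] at this
  refine this.trans ?_
  rw [mul_assoc c]
  gcongr
  nlinarith [le_abs_self C, sq_nonneg (Sc (g τ) z)]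

/-- the curvature along the worldline of a point that stops a window -/
theorem exists_born (P : Cs) (hL : 0 < P.L) : ∃ C' > 0, ∀ (X : Mf) (F : Dat X.M) (W : Set X.M)
    (s ρ τ K r T A : ℝ) (y z : X.M), F.Ctl P A → F.Reg r T W s y → F.Born W s y z ρ τ K r →
    r ≤ A → T + τ ≤ A → F.b z ∈ Ioo F.T₀ F.T₁ ∧ z ∈ postS F.b F.d (F.b z) ∧
      |(max (Sc (F.g s) z) P.L)⁻¹ - (max (Sc (F.g (F.b z)) z) P.L)⁻¹| ≤ C' * τ := by
  obtain ⟨C', hC, H⟩ := exists_dt P.C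
  refine ⟨C', hC, fun X F W s ρ τ K r T A y z h hy hz hr hT => ?_⟩
  have hW := P216EO.prec_sl hy.prec h.bas.sl (T₀ := F.T₀)
    ((h.bas.sf.ge z).trans (by
      rcases hy.prec with ⟨e, rfl⟩ | ⟨-, rfl⟩
      exacts [e ▸ (h.bas.sl.alive (cbl_subset hz.mem)).1, (cbl_subset hz.mem).1]))
  have hzW := cbl_subset hz.mem
  have ha := hW.1.alive hzW
  have h0 : F.T₀ < F.b z := by linarith [h.env.init, hy.le, hz.le]
  rcases ha.1.eq_or_lt with e | hlt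
  · have h1 : 0 ≤ τ := by linarith [hz.le]
    rcases hW.1 with ⟨-, rfl⟩ | ⟨h2, rfl⟩
    · exact absurd e hzW.1.ne
    · rw [e]
      exact ⟨⟨e ▸ h0, h2.2⟩, hzW, by rw [sub_self, abs_zero]; positivity⟩
  · have h1 := hW.1.mem_Icc.2
    have hf := h.bas.sf.rf _ _ hlt h1
    have hm : z ∈ Liv F.b F.d (F.b z) s := ⟨le_rfl, ha.2⟩
    refine ⟨⟨h0, hlt.trans_le h1⟩, ⟨le_rfl, hlt.trans_le ha.2⟩, ?_⟩
    refine (sc_inv_lip hf.toFam hm hL hC.le (fun σ hσ h2 => H X F.g _ _ _ _ σ P.A z hf hm hσ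
      (h.cn (postS F.b F.d σ) σ z ⟨Or.inr ⟨hσ.2.trans_le hW.2, rfl⟩, ?_,
        ⟨hσ.1.le, hσ.2.trans_le ha.2⟩, ?_⟩ h2.le).dt) ⟨hlt.le, le_rfl⟩ ⟨le_rfl, hlt.le⟩).trans ?_
    · linarith [hy.le, hz.le, hσ.1]
    · linarith [hz.reg _ σ (Or.inr ⟨hσ.2, rfl⟩) hσ.1.le]
    · rw [abs_of_pos (sub_pos.2 hlt)]
      gcongr
      linarith [hz.le]

theorem wt_le {a K : ℝ} (ha : a ∈ Ioc (0 : ℝ) 1) (hK : 1 ≤ K) : wt a K ≤ 1 := by
  rw [wt, div_le_one (by linarith)]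
  nlinarith [ha.1, ha.2]

theorem num_h {c L σ K u u₀ h C a : ℝ} (c1 : 1 ≤ c) (l0 : 0 < L) (s0 : 0 < σ)
    (s1 : σ ^ 2 * K = 1) (k1 : 8 * c * L ≤ K) (k2 : 1 ≤ K) (f1 : |σ ^ 2 * u - 1| ≤ 1 / 100)
    (hC : 0 < C) (a0 : 0 < a) (a2 : a ≤ 1) (a3 : a ≤ 1 / (25 * C))
    (b3 : |(max u L)⁻¹ - (max u₀ L)⁻¹| ≤ C * (a ^ 2 / 4 * σ ^ 2)) (t3 : h ^ 2 * u₀ ≤ c) :
    h ≤ 2 * c * σ ∧ h ≤ 2 * c ∧ 4 * L * h ^ 2 ≤ 1 := by
  have f := abs_le.1 f1
  have s2 := pow_pos s0 2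
  have k3 : 8 * c * L * σ ^ 2 ≤ 1 := by nlinarith
  have k4 : L * σ ^ 2 ≤ 1 / 8 := by nlinarith [mul_pos l0 s2]
  have u1 : L ≤ u := by
    by_contra hc
    nlinarith [mul_lt_mul_of_pos_left (not_le.1 hc) s2]
  have u2 : u⁻¹ ≤ 102 / 100 * σ ^ 2 := by
    rw [inv_le_iff_one_le_mul₀ (by linarith)]; linarith
  have u3 : C * (a ^ 2 / 4 * σ ^ 2) ≤ 1 / 100 * σ ^ 2 := by
    rw [← mul_assoc]
    gcongr
    rw [le_div_iff₀ (by positivity)] at a3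
    nlinarith [mul_pos a0 hC]
  rw [max_eq_left u1] at b3
  have u4 : 1 ≤ 103 / 100 * σ ^ 2 * max u₀ L := by
    rw [← inv_le_iff_one_le_mul₀ (l0.trans_le (le_max_right _ _))]
    linarith [(abs_le.1 b3).1]
  have u5 : 1 ≤ 103 / 100 * σ ^ 2 * u₀ := by
    rcases le_total u₀ L with h1 | h1
    · rw [max_eq_right h1] at u4; linarith
    · rwa [max_eq_left h1] at u4
  have u6 : h ^ 2 ≤ 103 / 100 * c * σ ^ 2 := by
    linarith [mul_le_mul_of_nonneg_left u5 (sq_nonneg h), mul_le_mul_of_nonneg_left t3 s2.le]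
  have u7 : h ≤ 2 * c * σ := by
    refine (abs_le_of_sq_le_sq' (u6.trans ?_) (by positivity)).2
    linarith [mul_le_mul_of_nonneg_right (show c ≤ c ^ 2 by nlinarith) s2.le,
      mul_pos s2 (show 0 < c by linarith)]
  have s4 : σ ≤ 1 := by
    by_contra hc
    nlinarith [mul_le_mul_of_nonneg_left k2 s2.le, not_le.1 hc]
  exact ⟨u7, u7.trans (by nlinarith), by linarith [mul_le_mul_of_nonneg_left u6 l0.le]⟩

theorem winn (hR : RAT) : WINN := fun P e hP => by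
  obtain ⟨C', hC, hb⟩ := exists_born P hP.L0
  obtain ⟨a₀, ha₀, H⟩ := hR P e hP
  refine ⟨min a₀ (min 1 (1 / (25 * C'))), by positivity, fun a ha r T => ?_⟩
  obtain ⟨a1, a2, a3⟩ : a ≤ a₀ ∧ a ≤ 1 ∧ a ≤ 1 / (25 * C') := by simpa only [le_min_iff] using ha.2
  obtain ⟨lev, hlev, H⟩ := H a ⟨ha.1, a1⟩ r T (2 * P.c 0)
  refine ⟨max lev (max r (T + 1)), by positivity, fun X F W s y z h hy hK hδ hF hz => ?_⟩
  obtain ⟨k1, k2⟩ := max_le_iff.1 hK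
  have c1 := hP.c1 0
  have l0 := hP.L0
  obtain ⟨s0, s1⟩ := sg_sq (show 0 < Sc (F.g s) y by linarith)
  have s2 : wr a (Sc (F.g s) y) = a * P216FA.sg (F.g s) y := div_eq_mul_inv _ _
  have s3 : wt a (Sc (F.g s) y) = a ^ 2 / 4 * P216FA.sg (F.g s) y ^ 2 := by
    rw [wt, eq_div_of_mul_eq (by linarith) s1]; field_simp
  obtain ⟨b1, b2, b3⟩ := hb X F W s _ _ _ r T _ y z h hy hz
    ((le_max_left _ _).trans (le_max_right _ _))
    (le_trans (by linarith [wt_le ⟨ha.1, a2⟩ k2]) ((le_max_right r _).trans (le_max_right _ _)))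
  obtain ⟨p₀, t1, t2⟩ := (h.bas.srg _ b1).born z b2 rfl
  have h0 := h.bas.hpos
  have d0 := h.bas.dpos
  have t3 := (t1.sc z (bl_mono (by
    rw [le_div_iff₀ d0]; linarith [mul_le_mul_of_nonneg_left hδ h0.le]) t2)).2
  have hm := hz.mem
  rw [s2] at hm
  rw [s3] at b3
  generalize P216FA.sg (F.g s) y = σ at *
  have c2 : σ ≤ P.c 0 ^ 2 * σ := le_mul_of_one_le_left s0.le (one_le_pow₀ c1)
  have a4 : a * σ ≤ σ := mul_le_of_le_one_left s0.le a2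
  have a0 := ha.1
  obtain ⟨u7, u8, u9⟩ := num_h c1 l0 s0 s1 k1 k2
    (hF z (cbl_subset_bl (by positivity) (by linarith) hm)) hC a0 a2 a3 b3 t3
  obtain ⟨p, hp, q, hq, p1, q1⟩ := H X F W s y z _ _ (ctl_mono h hlev (le_max_left _ _)) hy
    (max_le (by linarith [le_mul_of_one_le_left l0.le c1]) k2) hz hδ u8 u9
  have sub : bl (F.g s) W z (4 * P.c 0 * F.h) ⊆ bl (F.g s) W y (10 * P.c 0 ^ 2 * σ) :=
    bl_sub_bl hm (by positivity) (by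
      linarith [mul_le_mul_of_nonneg_left u7 (show 0 ≤ P.c 0 by linarith)])
  have f2 := abs_le.1 (hF p (sub hp))
  have f3 := abs_le.1 (hF q (sub hq))
  have e1 : 23 / 20 * (99 / 100) ≤ F.h ^ 2 * Sc (F.g s) p * (σ ^ 2 * Sc (F.g s) q) :=
    mul_le_mul p1.1 (by linarith) (by norm_num) (by linarith [p1.1])
  have e2 : F.h ^ 2 * Sc (F.g s) q * (σ ^ 2 * Sc (F.g s) p) ≤ 21 / 20 * (101 / 100) :=
    mul_le_mul q1.2 (by linarith) (by linarith) (by norm_num)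
  linarith

/-- the window about a point where the curvature is almost constant -/
theorem winf (hW : WIN) (hN : WINN) (P : Cs) (e : ℝ) (hP : P.Ok e) : ∃ a ∈ Ioc (0 : ℝ) 1,
    ∀ r T : ℝ, ∃ lev > 0, ∀ (X : Mf) (F : Dat X.M) (W : Set X.M) (s σ : ℝ) (y : X.M),
      F.Ctl P lev → F.Reg r T W s y → max (8 * P.c 0 * P.L) 1 ≤ Sc (F.g s) y →
      F.δ * P.c 0 ≤ 1 / 8 → 0 < σ → σ ^ 2 * Sc (F.g s) y = 1 →
      Fl1 (1 / 100) (10 * P.c 0 ^ 2) (F.g s) W y σ →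
      ParB F.g W y s (a * σ) (a ^ 2 / 4 * σ ^ 2) (16 / σ ^ 2) := by
  obtain ⟨a₁, ha₁, H₁⟩ := hW P e hP
  obtain ⟨a₂, ha₂, H₂⟩ := hN P e hP
  have a0 : 0 < min 1 (min a₁ a₂) := by positivity
  refine ⟨min 1 (min a₁ a₂), ⟨a0, min_le_left _ _⟩, fun r T => ?_⟩
  obtain ⟨l₁, hl₁, r', hr', H₁⟩ := H₁ _ ⟨a0, (min_le_right _ _).trans (min_le_left _ _)⟩ r T
  obtain ⟨l₂, hl₂, H₂⟩ := H₂ _ ⟨a0, (min_le_right _ _).trans (min_le_right _ _)⟩ r' T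
  refine ⟨max l₁ l₂, by positivity, fun X F W s σ y h hy hK hδ s0 s1 hF => ?_⟩
  obtain ⟨k1, k2⟩ := max_le_iff.1 hK
  have e0 := sg_eq s0 s1
  have e1 : Sc (F.g s) y = 1 / σ ^ 2 := by rw [eq_div_iff (by positivity), mul_comm, s1]
  have := (H₁ X F W s y _ (ctl_mono h hl₁ (le_max_left _ _)) hy (max_le (by
    linarith [le_mul_of_one_le_left hP.L0.le (hP.c1 0), hP.L0]) k2) le_rfl).resolve_right
    fun ⟨z, hz⟩ => H₂ X F W s y z (ctl_mono h hl₂ (le_max_right _ _)) (reg_mono hy hr' le_rfl) hK hδ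
      (e0 ▸ hF) hz
  rwa [wr, wt, div_eq_mul_inv _ (√_), ← P216FA.sg, e0, e1, show ∀ a : ℝ, a / (4 * (1 / σ ^ 2)) =
    a / 4 * σ ^ 2 from fun a => by field_simp, mul_one_div] at this

theorem pin_le {M : Type} [TopologicalSpace M] [ChartedSpace E3 M] [IsManifold 𝓘(ℝ, E3) ∞ M]
    [MeasurableSpace M] {g : Ten E3 M} {W : Set M} {z : M} {A η C σ : ℝ} (hg : Met g W)
    (h : Pin g W A) (hz : z ∈ W) (hη : 0 < η) (hC : 0 < C) (h1 : Sc g z ≤ C / σ ^ 2)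
    (h2 : Real.exp (3 + 1 / (η / C)) / A ≤ η / σ ^ 2) : SecGe g z (-(η / σ ^ 2)) :=
  secGe_mono hg hz (h z hz (η / C) (by positivity)) (neg_le_neg (max_le
    ((mul_le_mul_of_nonneg_left h1 (by positivity)).trans_eq (by field_simp)) h2))

theorem al_of_minGeo {M : Type} [TopologicalSpace M] [ChartedSpace E3 M] [MeasurableSpace M]
    {g : Ten E3 M} {W : Set M} {γ : ℝ → M} {l e : ℝ} (h : MinGeo g W γ (2 * l)) (he : 0 ≤ e) :
    AL g W (γ l) l e := by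
  have l0 : 0 ≤ l := by linarith [h.nonneg]
  obtain ⟨ε, hε, -, hm⟩ := h.geo
  have k : ∀ s ∈ Icc 0 (2 * l), ∀ t ∈ Icc 0 (2 * l), dd g W (γ s) (γ t) = |s - t| :=
    fun s hs t ht => by rw [dd, h.min s hs t ht, ENNReal.toReal_ofReal (abs_nonneg _)]
  have m0 : (0 : ℝ) ∈ Icc 0 (2 * l) := ⟨le_rfl, h.nonneg⟩
  have m1 : l ∈ Icc 0 (2 * l) := ⟨l0, by linarith⟩
  have m2 : 2 * l ∈ Icc 0 (2 * l) := ⟨h.nonneg, le_rfl⟩
  refine ⟨γ 0, hm ⟨by linarith, by linarith⟩, γ (2 * l), hm ⟨by linarith, by linarith⟩, ?_⟩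
  rw [k _ m1 _ m0, k _ m1 _ m2, k _ m0 _ m2, sub_zero, zero_sub, abs_neg, abs_of_nonneg l0,
    abs_of_nonneg h.nonneg, abs_of_nonpos (by linarith)]
  exact ⟨le_rfl, by linarith, by linarith⟩

theorem bca (hW : WIN) (hN : WINN) (hB : P216N.BCBD) : BCA := fun c => by
  obtain ⟨e₁, he₁, nk⟩ := nkf (10 * c 0 ^ 2)
  obtain ⟨e₂, he₂, v, hv, nm⟩ := P216FI.neckm
  refine ⟨min e₁ e₂, by positivity, fun P hc hP K₁ A₁ => ?_⟩
  obtain ⟨a, ha, H⟩ := winf hW hN P _ hP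
  have a0 := ha.1
  obtain ⟨K₀, k1, k2⟩ : ∃ K₀, K₁ ≤ K₀ ∧ max (8 * P.c 0 * P.L) 1 ≤ K₀ :=
    ⟨_, le_max_left _ _, le_max_right _ _⟩
  have k3 : 1 ≤ K₀ := (le_max_right _ _).trans k2
  obtain ⟨r₀, r0, r1⟩ : ∃ r₀ > 0, 1 / r₀ ^ 2 = K₀ :=
    ⟨(√K₀)⁻¹, inv_pos.2 (Real.sqrt_pos.2 (by linarith)), by
      rw [inv_pow, Real.sq_sqrt (by linarith), one_div, inv_inv]⟩
  obtain ⟨C, C1, C2⟩ : ∃ C, P.C ≤ C ∧ 96 ≤ C := ⟨_, le_max_left _ _, le_max_right _ _⟩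
  have C0 : 0 < C := by linarith
  obtain ⟨K, η, hη, hK⟩ := hB v hv P.A hP.A1 (a ^ 2 / 4) (by positivity) C (A₁ / r₀)
  refine ⟨K / r₀ ^ 2, fun r T => ?_⟩
  obtain ⟨l₁, hl₁, H⟩ := H (r + A₁) T
  obtain ⟨lev, v1, v2, v3, v4, v5⟩ : ∃ lev, l₁ ≤ lev ∧ r ≤ lev ∧ r + A₁ ≤ lev ∧ T + 1 ≤ lev ∧
      Real.exp (3 + 1 / (η / C)) / η ≤ lev := by
    obtain ⟨lev, h⟩ := (Set.toFinite {l₁, r, r + A₁, T + 1, Real.exp (3 + 1 / (η / C)) / η}).bddAbove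
    exact ⟨lev, h (by simp), h (by simp), h (by simp), h (by simp), h (by simp)⟩
  have v0 : 0 < lev := hl₁.trans_le v1
  refine ⟨lev, v0, fun X F W s y h hδ hy h1 z hz => ?_⟩
  obtain ⟨hs, hs'⟩ := ctl_sl h hy (by linarith)
  have hg := h.bas.sf.met hs
  have hH := h.bas.sf.sl_hs hs
  have e0 : A₁ / r₀ * r₀ = A₁ := div_mul_cancel₀ _ r0.ne'
  refine hK X.M F.g W s y r₀ r0 hg hH ((hg.cpl (h.bas.sf.sl_cpt hs)).cpt hy.mem _)
    (by linarith) (fun u hu σ s0 s1 s2 => ?_) z (e0.symm ▸ hz)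
  rw [e0] at hu
  have hu' := ctl_reg h hy v2 (by linarith) hu
  have e1 : Sc (F.g s) u = 1 / σ ^ 2 := by rw [eq_div_iff (by positivity), mul_comm, s2]
  have k4 : K₀ ≤ Sc (F.g s) u := by rw [e1, ← r1]; gcongr
  have s3 : σ ^ 2 ≤ 1 := by
    rw [e1] at k4
    simpa using (le_div_iff₀ (by positivity)).1 (k3.trans k4)
  have p2 : Real.exp (3 + 1 / (η / C)) / lev ≤ η / σ ^ 2 := by
    rw [div_le_iff₀ hη] at v5
    rw [div_le_div_iff₀ v0 (by positivity)]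
    linarith [mul_le_of_le_one_right (Real.exp_pos (3 + 1 / (η / C))).le s3]
  have hcn := h.cn W s u (reg_mono hu' v3 (by linarith)) (by
    linarith [(le_max_left _ _).trans k2, le_mul_of_one_le_left hP.L0.le (hP.c1 0), hP.L0])
  have e2 := sg_eq s0 s2
  have bd : ∀ w ∈ bl (F.g s) W u (P.A * σ), Sc (F.g s) w ≤ C / σ ^ 2 := fun w hw =>
    (hcn.dt.two w (e2.symm ▸ hw)).2.trans (by rw [e1, mul_one_div]; gcongr)
  refine ⟨bd, fun γ g1 g2 => ?_⟩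
  have ce : Cen (F.g s) W u σ P.ε := by
    have := hcn.nt.neck
    rw [e2] at this
    exact this (g2 ▸ al_of_minGeo g1 s0.le)
  have pb := parB_sub (H X F W s σ u (ctl_mono h hl₁ v1) hu' (k2.trans k4) (hc.symm ▸ hδ) s0 s2
    (hc.symm ▸ (nk X _ W u σ _ hg hH (hP.εe.trans (min_le_left _ _)) ce).2)) hg
    (bl_mono (r := a ^ 2 / 4 * σ) (by gcongr; nlinarith [ha.2])) le_rfl le_rfl
  have t0 : 0 < a ^ 2 / 4 * σ ^ 2 := by positivity
  have t1 : a ^ 2 / 4 * σ ^ 2 ≤ 1 :=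
    mul_le_one₀ (by nlinarith [ha.2]) (by positivity) s3
  refine ⟨nm X.M _ W u σ _ σ hg hH (hP.εe.trans (min_le_right _ _)) ce s0 s2, fun w hw => ?_,
    parB_sub pb hg Subset.rfl le_rfl (by gcongr; linarith), fun t ht w hw => ?_⟩
  · exact pin_le hg (h.env.pin W s hs ⟨by linarith [hy.le], hs'⟩) (bl_subset hw) hη C0
      (bd w (bl_mono (by gcongr; exact hP.A1) hw)) p2
  · obtain ⟨V, hV, hV'⟩ := h.bas.sf.exists_sl (by linarith) hs.mem_Icc.2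
      (h.bas.sf.subset_liv (by linarith) pb.1.toFam hw) ht
    have m := hV' (h.bas.sf.subset_liv (by linarith) pb.1.toFam hw)
    refine pin_le (h.bas.sf.met hV) (h.env.pin V t hV ⟨by linarith [hy.le, ht.1], ht.2.trans hs'⟩)
      m hη C0 ((le_abs_self _).trans ((abs_sc_le3 (by simp) (h.bas.sf.met hV) m
        (pb.2 t ht w hw)).trans ?_)) p2
    rw [← mul_div_assoc]
    gcongr
    linarith

theorem parB_unresc {M : Type} [TopologicalSpace M] [ChartedSpace E3 M] [IsManifold 𝓘(ℝ, E3) ∞ M]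
    {g : ℝ → Ten E3 M} {U : Set M} {x : M} {t r τ K σ : ℝ} (s0 : 0 < σ)
    (h : ParB (resc g (σ⁻¹ ^ 2) t) U x 0 r τ K) : ParB g U x t (r * σ) (τ * σ ^ 2) (K / σ ^ 2) := by
  have e0 : bl (resc g (σ⁻¹ ^ 2) t 0) U x r = bl (g t) U x (r * σ) := by
    rw [← bl_smul (g := g t) (inv_pos.2 s0), resc, zero_div, add_zero, mul_comm r,
      inv_mul_cancel_left₀ s0.ne']
  have m : MapsTo (fun s => -t / σ ^ 2 + s / σ ^ 2) (Icc (t - τ * σ ^ 2) t) (Icc (0 - τ) 0) :=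
    fun s hs => by
      beta_reduce
      rw [← add_div, mem_Icc, le_div_iff₀ (by positivity), div_le_iff₀ (by positivity)]
      constructor <;> linarith [hs.1, hs.2]
  have e1 : ∀ s, σ ^ 2 • resc g (σ⁻¹ ^ 2) t (-t / σ ^ 2 + s / σ ^ 2) = g s := fun s => by
    rw [resc, smul_smul, show t + (-t / σ ^ 2 + s / σ ^ 2) / σ⁻¹ ^ 2 = s by field_simp; ring,
      show σ ^ 2 * σ⁻¹ ^ 2 = 1 by field_simp, one_smul]
  obtain ⟨h1, h2⟩ := h
  rw [Par] at h1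
  rw [e0] at h1 h2
  have := RF.resc h1 (pow_pos s0 2) _ m
  simp only [e1] at this
  refine ⟨this, fun s hs y hy => ?_⟩
  rw [← e1 s, (RF.met h1 (m hs)).RmB_smul hy s0, zero_add, mul_div_cancel₀ _ (by positivity)]
  exact h2 _ (m hs) y hy

theorem nkp (hS : SCALE) (hW : WIN) (hN : WINN) : P216FB.NKP := fun c => by
  obtain ⟨e, he, nk⟩ := nkf (10 * c 0 ^ 2)
  refine ⟨e, he, fun P hc hP => ?_⟩
  have c1 := hP.c1 0
  have hP' : Cs.Ok { P with L := 1 / (8 * P.c 0) } e :=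
    { hP with L0 := by change 0 < 1 / (8 * P.c 0); positivity }
  obtain ⟨a, ha, H⟩ := winf hW hN _ e hP'
  obtain ⟨lev, hl, H⟩ := H 0 0
  have a0 := ha.1
  refine ⟨1 / (8 * P.c 0), by positivity, a ^ 2 / 4, by positivity, 16, lev, 1 / (8 * P.c 0),
    by positivity, hl, fun M _ _ _ _ _ F σ hδ s0 s1 h ce => ?_⟩
  have e1 : Sc (F.g F.t) F.x = σ⁻¹ ^ 2 := by field_simp; linarith
  rw [e1] at h
  have q0 : 0 < σ⁻¹ ^ 2 := by positivity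
  have hg := h.bas.sf.met h.bas.sl
  have hH := h.bas.sf.sl_hs h.bas.sl
  have e2 : √(σ⁻¹ ^ 2) * (lev / √(σ⁻¹ ^ 2)) = lev := mul_div_cancel₀ _ (Real.sqrt_pos.2 q0).ne'
  have e3 : σ⁻¹ ^ 2 * (lev / σ⁻¹ ^ 2) = lev := mul_div_cancel₀ _ q0.ne'
  have e4 : ∀ s y, Sc ((F.rs (σ⁻¹ ^ 2)).g s) y = σ ^ 2 * Sc (F.g (F.t + s / σ⁻¹ ^ 2)) y :=
    fun s y => (Sc_smul _ y q0.ne').trans (by rw [inv_pow, inv_inv])
  have hc' : (F.rs (σ⁻¹ ^ 2)).Ctl { P with L := 1 / (8 * P.c 0) } lev := by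
    refine ⟨hS.rsBas ⟨M⟩ F _ _ q0 h.bas, ?_, fun W s y H1 H2 => ?_⟩
    · simpa only [e2, e3] using hS.rsEnv ⟨M⟩ F _ _ _ _ _ _ _ q0 h.bas h.env
    · have H3 := (hS.rsReg ⟨M⟩ F _ _ _ W s y q0).1 (by rwa [e2, e3])
      refine (hS.rsCN ⟨M⟩ _ W y _ _ _ _ _ q0 (hS.clo ⟨M⟩ F _ W _ h.bas
        (hS.regSl ⟨M⟩ F _ _ _ W _ y h.bas h.env.init H3)) H3.mem).2 (h.cn W _ y H3 ?_)
      rw [e4] at H2
      rw [inv_pow, ← div_eq_mul_inv, div_le_iff₀' (by positivity)]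
      rwa [inv_pow] at H2
  have e5 : Sc ((F.rs (σ⁻¹ ^ 2)).g 0) F.x = 1 := by rw [e4, zero_div, add_zero, s1]
  have := H ⟨M⟩ _ F.U 0 1 F.x hc' ⟨Or.inl ⟨rfl, rfl⟩, by simp [Dat.rs], h.bas.mem, by simp [Dat.rs]⟩
    (by rw [e5]; exact max_le (mul_one_div_cancel (by positivity)).le le_rfl)
    (by
      change F.δ * P.c 0 ≤ 1 / 8
      rw [le_div_iff₀ (by positivity)] at hδ
      linarith) one_pos (by rw [e5]; norm_num) fun y hy => by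
      rw [e4, zero_div, add_zero, one_pow, one_mul]
      refine (nk ⟨M⟩ _ _ _ σ _ hg hH hP.εe ce).2 y ?_
      rw [← bl_smul (inv_pos.2 s0), mul_comm _ σ, inv_mul_cancel_left₀ s0.ne', ← hc]
      simpa [Dat.rs, resc] using hy
  simp only [mul_one, one_pow, div_one] at this
  exact parB_sub (parB_unresc s0 this) hg (bl_mono (by gcongr; nlinarith [ha.2])) le_rfl le_rfl

end Vale.Agent.P216G
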