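import Vale.Agent.P216G.Inj

/-!
# Uniformly good charts from curvature bounds and one volume bound
-/

open Set Topology Function Metric MeasureTheory Module
open Filter hiding comap comap_id
open scoped ContDiff Manifold ENNReal

set_option maxSynthPendingDepth 3

noncomputable section

namespace Vale.Agent.P216G

open Vale.Agent.P219.RG Vale.Agent.P216R Vale.Agent.P216CP Vale.Agent.P216BF Vale.Agent.P216U

theorem step_ind {P : ℝ → Prop} {ε T : ℝ} (hε : 0 < ε) (h0 : ∀ t, 0 < t → t ≤ ε → P t)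
    (hs : ∀ t, 0 < t → t + ε ≤ T → P t → P (t + ε)) {t : ℝ} (ht : 0 < t) (hT : t ≤ T) : P t := by
  obtain ⟨k, hk⟩ := Archimedean.arch t hε
  induction k generalizing t with
  | zero => simp at hk; linarith
  | succ k ih =>
    rcases le_or_gt t ε with h | h
    · exact h0 t ht h
    · rw [succ_nsmul] at hk
      simpa using hs (t - ε) (by linarith) (by linarith)
        (ih (by linarith) (by linarith) (by linarith))

variable {E : Type} [NormedAddCommGroup E] [InnerProductSpace ℝ E] [FiniteDimensional ℝ E]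

omit [FiniteDimensional ℝ E] in
theorem exists_mid_bl {M : Type} [TopologicalSpace M] [ChartedSpace E M] {g : Ten E M} {U : Set M}
    {x y : M} {a b : ℝ} (ha : 0 < a) (hb : 0 < b) (hy : y ∈ bl g U x (a + b)) :
    ∃ z ∈ bl g U x a, y ∈ bl g U z b := by
  by_cases h : y ∈ bl g U x a
  · exact ⟨y, h, mem_bl_self (bl_subset h) hb⟩
  obtain ⟨r, -, h1, h2⟩ := exists_lt_of_mem_bl hy
  have h3 : max (r - b) 0 < a := max_lt (by linarith) ha
  have h4 := (ENNReal.ofReal_lt_ofReal_iff ha).2 h3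
  obtain ⟨z, h5, h6⟩ := P216R.exists_mid (s := ENNReal.ofReal (max (r - b) 0)) h2
    (h4.le.trans (not_lt.1 h))
  refine ⟨z, h5.trans_lt h4, lt_of_add_lt_add_left (h6.trans_le ?_)⟩
  rw [← ENNReal.ofReal_add (le_max_right _ _) hb.le]
  exact ENNReal.ofReal_le_ofReal (by linarith [le_max_left (r - b) 0])

variable {ι : Type} {l : Filter ι} {M : ι → Type} [∀ n, TopologicalSpace (M n)]
  [∀ n, ChartedSpace E (M n)] [∀ n, IsManifold 𝓘(ℝ, E) ∞ (M n)] {g : ∀ n, Ten E (M n)}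
  {U : ∀ n, Set (M n)} {x : ∀ n, M n} {φ : ∀ n, M n → E → M n} {T r ε : ℝ}

/-- uniform covering numbers -/
theorem exists_cover (hε : 0 < ε) (hx : ∀ᶠ n in l, x n ∈ U n)
    (h : ∀ᶠ n in l, ∀ y ∈ bl (g n) (U n) (x n) T, Gd (g n) (U n) y (2 * ε) (φ n y))
    {t : ℝ} (ht : 0 < t) (hT : t ≤ T) : ∃ N : ℕ, ∀ᶠ n in l, ∃ P : Finset (M n), P.card ≤ N ∧
      (∀ z ∈ P, z ∈ bl (g n) (U n) (x n) (t + ε)) ∧
      bl (g n) (U n) (x n) t ⊆ ⋃ z ∈ P, bl (g n) (U n) z ε := by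
  classical
  obtain ⟨F, hF, hF', hc⟩ := finite_approx_of_totallyBounded
    ((isCompact_closedBall (0 : E) (2 * ε)).totallyBounded.subset ball_subset_closedBall)
    (ε / 2) (by linarith)
  lift F to Finset E using hF'
  refine step_ind (P := fun t => ∃ N : ℕ, ∀ᶠ n in l, ∃ P : Finset (M n), P.card ≤ N ∧
      (∀ z ∈ P, z ∈ bl (g n) (U n) (x n) (t + ε)) ∧
      bl (g n) (U n) (x n) t ⊆ ⋃ z ∈ P, bl (g n) (U n) z ε) hε (fun t ht htε => ⟨1, hx.mono fun n hn => ⟨{x n}, by simp,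
    by simpa using mem_bl_self hn (by linarith), by simpa using bl_mono htε⟩⟩)
    (fun t ht htT ⟨N, hN⟩ => ⟨N * F.card, ?_⟩) ht hT
  filter_upwards [hN, h] with n ⟨P, h1, h2, h3⟩ h4
  refine ⟨{z ∈ P.biUnion fun z => F.image (φ n z) | z ∈ bl (g n) (U n) (x n) (t + ε + ε)},
    (Finset.card_filter_le _ _).trans ((Finset.card_biUnion_le_card_mul _ _ _
      fun _ _ => Finset.card_image_le).trans (by gcongr)),
    fun z hz => (Finset.mem_filter.1 hz).2, fun y hy => ?_⟩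
  obtain ⟨y', h5, h6⟩ := exists_mid_bl ht hε hy
  obtain ⟨z, hz, h7⟩ := mem_iUnion₂.1 (h3 h5)
  have h8 := h4 z (bl_mono htT (h2 z hz))
  have h9 := bl_add hε.le (bl_subset_cbl h7) h6
  rw [← two_mul, ← h8.image] at h9
  obtain ⟨w, hw, rfl⟩ := h9
  obtain ⟨c, hc, h10⟩ := mem_iUnion₂.1 (hc hw)
  have h11 : φ n z c ∈ bl (g n) (U n) (φ n z w) ε :=
    (h8.ed_le hw (hF hc)).trans_lt ((ENNReal.ofReal_lt_ofReal_iff hε).2 (by
      linarith [mem_ball_iff_norm.1 h10]))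
  exact mem_iUnion₂.2 ⟨_, Finset.mem_filter.2 ⟨Finset.mem_biUnion.2 ⟨z, hz,
    Finset.mem_image_of_mem _ hc⟩, bl_add (by linarith) (bl_subset_cbl hy) h11⟩,
    mem_bl_comm.1 h11⟩

variable [MeasurableSpace E] [BorelSpace E] [∀ n, MeasurableSpace (M n)] [∀ n, BorelSpace (M n)]

omit [∀ n, IsManifold 𝓘(ℝ, E) ∞ (M n)] [∀ n, BorelSpace (M n)] in
/-- propagation of lower volume bounds -/
theorem vol_chain (hε : 0 < ε) (hεT : ε ≤ T) (hx : ∀ᶠ n in l, x n ∈ U n)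
    (h : ∀ v : ℝ≥0∞, v ≠ 0 → ∃ v' : ℝ≥0∞, v' ≠ 0 ∧ ∀ᶠ n in l, ∀ y ∈ bl (g n) (U n) (x n) T,
      v ≤ vol (g n) (bl (g n) (U n) y (2 * ε)) → v' ≤ vol (g n) (bl (g n) (U n) y ε))
    {v : ℝ≥0∞} (hv : v ≠ 0) : ∃ v' : ℝ≥0∞, v' ≠ 0 ∧ ∀ᶠ n in l,
      ∀ y ∈ bl (g n) (U n) (x n) T, ∀ z ∈ bl (g n) (U n) (x n) T,
      v ≤ vol (g n) (bl (g n) (U n) y (2 * ε)) → v' ≤ vol (g n) (bl (g n) (U n) z (2 * ε)) := by
  have h1 : ∀ v : ℝ≥0∞, v ≠ 0 → ∃ v' : ℝ≥0∞, v' ≠ 0 ∧ ∀ᶠ n in l, ∀ y ∈ bl (g n) (U n) (x n) T,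
      ∀ z, y ∈ bl (g n) (U n) z ε → v ≤ vol (g n) (bl (g n) (U n) y (2 * ε)) →
        v' ≤ vol (g n) (bl (g n) (U n) z (2 * ε)) := fun v hv => by
    obtain ⟨v', h1, h2⟩ := h v hv
    refine ⟨v', h1, h2.mono fun n hn y hy z hz h3 => (hn y hy h3).trans (measure_mono ?_)⟩
    rw [two_mul]
    exact bl_add hε.le (bl_subset_cbl hz)
  have hT := hε.trans_le hεT
  have h2 : ∀ v : ℝ≥0∞, v ≠ 0 → ∃ v' : ℝ≥0∞, v' ≠ 0 ∧ ∀ᶠ n in l, ∀ y ∈ bl (g n) (U n) (x n) T,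
      v ≤ vol (g n) (bl (g n) (U n) y (2 * ε)) →
        v' ≤ vol (g n) (bl (g n) (U n) (x n) (2 * ε)) := by
    refine step_ind (P := fun t => ∀ v : ℝ≥0∞, v ≠ 0 → ∃ v' : ℝ≥0∞, v' ≠ 0 ∧ ∀ᶠ n in l,
      ∀ y ∈ bl (g n) (U n) (x n) t, v ≤ vol (g n) (bl (g n) (U n) y (2 * ε)) →
        v' ≤ vol (g n) (bl (g n) (U n) (x n) (2 * ε))) hε (fun t _ ht v hv => ?_)
      (fun t ht htT ih v hv => ?_) hT le_rfl
    · obtain ⟨v', h2, h3⟩ := h1 v hv
      exact ⟨v', h2, h3.mono fun n hn y hy => hn y (bl_mono (ht.trans hεT) hy) _ (bl_mono ht hy)⟩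
    · obtain ⟨v₁, h2, h3⟩ := h1 v hv
      obtain ⟨v', h4, h5⟩ := ih v₁ h2
      refine ⟨v', h4, ?_⟩
      filter_upwards [h3, h5] with n a b y hy h6
      obtain ⟨z, h7, h8⟩ := exists_mid_bl ht hε hy
      exact b z h7 (a y (bl_mono htT hy) z h8 h6)
  have h3 : ∀ v : ℝ≥0∞, v ≠ 0 → ∃ v' : ℝ≥0∞, v' ≠ 0 ∧ ∀ᶠ n in l, ∀ y ∈ bl (g n) (U n) (x n) T,
      v ≤ vol (g n) (bl (g n) (U n) (x n) (2 * ε)) →
        v' ≤ vol (g n) (bl (g n) (U n) y (2 * ε)) := by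
    refine step_ind (P := fun t => ∀ v : ℝ≥0∞, v ≠ 0 → ∃ v' : ℝ≥0∞, v' ≠ 0 ∧ ∀ᶠ n in l,
      ∀ y ∈ bl (g n) (U n) (x n) t, v ≤ vol (g n) (bl (g n) (U n) (x n) (2 * ε)) →
        v' ≤ vol (g n) (bl (g n) (U n) y (2 * ε))) hε (fun t _ ht v hv => ?_)
      (fun t ht htT ih v hv => ?_) hT le_rfl
    · obtain ⟨v', h2, h3⟩ := h1 v hv
      refine ⟨v', h2, ?_⟩
      filter_upwards [h3, hx] with n a b y hy
      exact a _ (mem_bl_self b hT) y (mem_bl_comm.1 (bl_mono ht hy))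
    · obtain ⟨v₁, h2, h3⟩ := ih v hv
      obtain ⟨v', h4, h5⟩ := h1 v₁ h2
      refine ⟨v', h4, ?_⟩
      filter_upwards [h3, h5] with n a b y hy h6
      obtain ⟨z, h7, h8⟩ := exists_mid_bl ht hε hy
      exact b z (bl_mono (by linarith) h7) y (mem_bl_comm.1 h8) (a z h7 h6)
  obtain ⟨v₁, h4, h5⟩ := h2 v hv
  obtain ⟨v', h6, h7⟩ := h3 v₁ h4
  refine ⟨v', h6, ?_⟩
  filter_upwards [h5, h7] with n a b y hy z hz h8
  exact b z hz (a y hy h8)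

/-- the injectivity radius is bounded below on the ball of radius `T` -/
theorem exists_inj_ball {R s : ℝ} (hR : 0 < R) (hs : 0 < s) (hsT : s < T)
    (hc : ∀ᶠ n in l, Cx (g n) (U n) (x n) (T + R))
    (hφ : ∀ᶠ n in l, ∀ y ∈ U n, IsNC (g n) (U n) y (φ n y))
    (hK : ∀ k, ∃ K, ∀ᶠ n in l, ∀ y ∈ bl (g n) (U n) (x n) (T + R), RmB (g n) k y K)
    {v : ℝ≥0∞} (hv : v ≠ 0) (hvol : ∀ᶠ n in l, v ≤ vol (g n) (bl (g n) (U n) (x n) s)) :
    ∃ δ > 0, δ ≤ R ∧ (∀ᶠ n in l, ∀ y ∈ bl (g n) (U n) (x n) T, Gd (g n) (U n) y δ (φ n y) ∧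
      InjOn (φ n y) (ball 0 δ)) ∧ ∀ k, BU (sg l fun n => bl (g n) (U n) (x n) T) (ball 0 δ) k
        fun q => comap (φ q.1 q.2) (g q.1) := by
  have hT := hs.trans hsT
  obtain ⟨r, hr, hrR, h1, h2⟩ := exists_gd (l := sg l fun n => bl (g n) (U n) (x n) T)
    (g := fun q => g q.1) (U := fun q => U q.1) (p := fun q => q.2) (φ := fun q => φ q.1 q.2) hR
    (ev_sg.2 (hc.mono fun n hn y hy => ⟨hn.met, hn.hs, bl_subset hy, by
      simpa using hn.cpt.shift hn.met hT.le (by linarith) (bl_subset_cbl hy)⟩))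
    (ev_sg.2 (hφ.mono fun n hn y hy => hn y (bl_subset hy)))
    fun k => (hK k).imp fun K hK => ev_sg.2 (hK.mono fun n hn y hy z hz =>
      hn z (bl_add hT.le (bl_subset_cbl hy) hz))
  obtain ⟨s₀, h3, h4, h5⟩ := exists_inj hr h1 h2
  obtain ⟨ε, hε, h6, h7⟩ : ∃ ε > 0, 2 * ε ≤ s₀ ∧ s + ε ≤ T :=
    ⟨min (s₀ / 2) (T - s), lt_min (by linarith) (by linarith),
      by linarith [min_le_left (s₀ / 2) (T - s)], by linarith [min_le_right (s₀ / 2) (T - s)]⟩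
  have h8 := h5 (2 * ε) (by linarith) h6
  have hx := hc.mono fun n hn => hn.mem
  obtain ⟨N, hN⟩ := exists_cover hε hx ((ev_sg.1 h1).mono fun n hn y hy =>
    (hn y hy).mono (by linarith) (h6.trans h4)) hs hsT.le
  obtain ⟨v', h9, h10⟩ := vol_chain (T := T) hε (by linarith) hx (fun v hv => by
    obtain ⟨δ, hδ, h9⟩ := h8 v hv
    have h10 : 0 < min δ ε := lt_min hδ hε
    refine ⟨vol (eu E) (ball 0 (min δ ε)) / ENNReal.ofReal (2 ^ finrank ℝ E),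
      ENNReal.div_ne_zero.2 ⟨vol_eu_ne_zero h10, ENNReal.ofReal_ne_top⟩, ?_⟩
    filter_upwards [ev_sg.1 (h1.and h9)] with n a y hy h11
    refine ENNReal.div_le_of_le_mul' ((((a y hy).1.mono h10.le
      ((min_le_right _ _).trans (by linarith))).le_vol (((a y hy).2 h11).mono
        (ball_subset_ball (min_le_left _ _)))).trans ?_)
    gcongr
    exact bl_mono (min_le_right _ _))
    (v := v / N) (ENNReal.div_ne_zero.2 ⟨hv, ENNReal.natCast_ne_top N⟩)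
  obtain ⟨δ, hδ, h11⟩ := h8 v' h9
  refine ⟨min δ r, lt_min hδ hr, (min_le_right _ _).trans hrR, ?_, fun k => BJ.comp_tendsto (h2 k)
    (φ := id) (tendsto_id'.2 (prod_mono le_rfl (principal_mono.2
      (ball_subset_ball (min_le_right _ _)))))⟩
  filter_upwards [ev_sg.1 (h1.and h11), h10, hN, hvol, hx] with n a b ⟨P, c1, c2, c3⟩ d e y hy
  refine ⟨(a y hy).1.mono (le_min hδ.le hr.le) (min_le_right _ _),
    ((a y hy).2 ?_).mono (ball_subset_ball (min_le_left _ _))⟩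
  obtain ⟨z, hz, h12⟩ := ENNReal.exists_le_of_sum_le (s := P) (f := fun _ => v / N)
    (g := fun z => vol (g n) (bl (g n) (U n) z ε))
    (let ⟨z, hz, _⟩ := mem_iUnion₂.1 (c3 (mem_bl_self e hs)); ⟨z, hz⟩) (by
      refine le_trans ?_ (d.trans ((measure_mono c3).trans (measure_biUnion_finset_le _ _)))
      rw [Finset.sum_const, nsmul_eq_mul]
      exact le_trans (by gcongr) ENNReal.mul_div_le)
  exact b z (bl_mono h7 (c2 z hz)) y hy (h12.trans (measure_mono (bl_mono (by linarith))))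

/-- bounded curvature and one volume bound give uniformly good charts -/
theorem good {ρ : ℝ≥0∞} (hg : ∀ᶠ n in l, Met (g n) (U n) ∧ Hs (U n) ∧ x n ∈ U n)
    (hc : ∀ r > 0, ENNReal.ofReal r < ρ → ∀ᶠ n in l, Cpt (g n) (U n) (x n) r)
    (hK : ∀ r > 0, ENNReal.ofReal r < ρ → ∀ k, ∃ K, ∀ᶠ n in l,
      ∀ y ∈ bl (g n) (U n) (x n) r, RmB (g n) k y K)
    {s : ℝ} (hs : 0 < s) (hsρ : ENNReal.ofReal s < ρ) {v : ℝ≥0∞} (hv : v ≠ 0)
    (hvol : ∀ᶠ n in l, v ≤ vol (g n) (bl (g n) (U n) (x n) s)) : Good l U g x ρ := by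
  intro r hr
  obtain ⟨T, -, h1, h2⟩ := ENNReal.lt_iff_exists_real_btwn.1 (max_lt hr hsρ)
  obtain ⟨T', -, h3, h4⟩ := ENNReal.lt_iff_exists_real_btwn.1 h2
  have h5 : s < T := (ENNReal.ofReal_lt_ofReal_iff'.1 ((le_max_right _ _).trans_lt h1)).1
  have h6 : T < T' := (ENNReal.ofReal_lt_ofReal_iff'.1 h3).1
  have h7 : ∀ n (y : M n), ∃ φ, Met (g n) (U n) → y ∈ U n → IsNC (g n) (U n) y φ := fun n y => by
    by_cases h : Met (g n) (U n) ∧ y ∈ U n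
    · exact (exists_isNC h.1 h.2).imp fun φ hφ _ _ => hφ
    · exact ⟨fun _ => y, fun a b => (h ⟨a, b⟩).elim⟩
  choose φ hφ using h7
  obtain ⟨δ, hδ, -, h8, h9⟩ := exists_inj_ball (φ := φ) (R := T' - T) (by linarith) hs h5
    (by
      filter_upwards [hg, hc T' (by linarith) h4] with n a b
      exact ⟨a.1, a.2.1, a.2.2, by simpa using b⟩)
    (hg.mono fun n hn y hy => hφ n y hn.1 hy) (by simpa using hK T' (by linarith) h4) hv hvol
  refine ⟨δ, hδ, 1 / 4, by norm_num, 9 / 4, fun y hy => ?_⟩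
  have h10 : ∀ᶠ n in l, y n ∈ bl (g n) (U n) (x n) T :=
    hy.mono fun n hn => hn.trans_lt ((le_max_left _ _).trans_lt h1)
  have h11 : ∀ᶠ n in l, Gd (g n) (U n) (y n) δ (φ n (y n)) ∧ InjOn (φ n (y n)) (ball 0 δ) := by
    filter_upwards [h8, h10] with n a b using a _ b
  exact ⟨fun n => φ n (y n), h11.mono fun n hn => hn.1.nc.zero hn.1.cx,
    h11.mono fun n hn => ⟨hn.1.ld, hn.2, hn.1.mapsU, fun a ha v => hn.1.bounds ha v⟩,
    fun k => BJ.comp_tendsto (h9 k) (φ := fun q : ι × E => (⟨q.1, y q.1⟩, q.2))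
      (((tendsto_sg h10).comp tendsto_fst).prodMk tendsto_snd)⟩

end Vale.Agent.P216G
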