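import Vale.Agent.P216G.Deck

/-!
# The injectivity radius estimate of Cheeger, Gromov and Taylor, in abstract form
-/

open Set Filter Topology Function Metric MeasureTheory
open scoped ENNReal

noncomputable section

namespace Vale.Agent.P216G

variable {E : Type} [NormedAddCommGroup E] [InnerProductSpace ℝ E] [FiniteDimensional ℝ E]
  {X : Type} [TopologicalSpace X] {φ : E → X} {U : Set X} {r L C ρ : ℝ} {a b : E} {σ : E → E}

omit [InnerProductSpace ℝ E] [FiniteDimensional ℝ E] [TopologicalSpace X] in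
theorem Deck.iter_le (h : Deck φ r L ρ a b σ) (hL : 0 ≤ L) {t : ℝ} (ht : ‖b - a‖ ≤ t) {N : ℕ}
    (hN : (L + 1) ^ N * t < ρ) {y : E} (hy : ‖y - a‖ ≤ t) :
    ∀ k ≤ N, ‖σ^[k] y - a‖ ≤ (L + 1) ^ k * t := by
  have h0 := (norm_nonneg _).trans ht
  intro k
  induction k with
  | zero => simpa using hy
  | succ k ih =>
    intro hk
    have h1 := ih (by omega)
    have h2 : (L + 1) ^ k * t ≤ (L + 1) ^ N * t := by
      gcongr
      · linarith
      · omega
    have h3 := h.le _ (mem_ball_iff_norm.2 (h1.trans_lt (h2.trans_lt hN)))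
    have h4 : t ≤ (L + 1) ^ k * t := le_mul_of_one_le_left h0 (one_le_pow₀ (by linarith))
    rw [iterate_succ_apply', ← sub_add_sub_cancel _ b a]
    refine (norm_add_le_of_le h3 ht).trans ?_
    nlinarith [mul_le_mul_of_nonneg_left h1 hL, pow_succ (L + 1) k]

theorem Dk.injOn_deck (h : Dk φ U r L C) (hL : 0 ≤ L) (hρ : 0 < ρ) (hs : Deck φ r L ρ a b σ)
    (ha : ‖a‖ + (L + 1) * ρ < r) (hb : ‖b‖ + ρ ≤ r) {t : ℝ} (ht : 0 < t) (htρ : (L + 1) * t ≤ ρ) :
    InjOn σ (ball a t) := by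
  have h0 : φ a = φ b := by rw [← hs.self hρ, hs.eq a (mem_ball_self hρ)]
  obtain ⟨τ, hτ⟩ := h.exists_deck hL hρ hb (by nlinarith) h0
  have h1 : ball a t ⊆ ball a ρ := ball_subset_ball (by nlinarith)
  have h2 : MapsTo σ (ball a t) (ball b ρ) := fun x hx => by
    have h3 := mem_ball_iff_norm.1 hx
    refine mem_ball_iff_norm.2 ((hs.le x (h1 hx)).trans_lt ?_)
    nlinarith [mul_le_mul_of_nonneg_left h3.le hL]
  have h3 := lift_unique h.loc isOpen_ball (convex_ball a t).isPreconnected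
    (hτ.cont.comp (hs.cont.mono h1) h2) continuousOn_id (hτ.mem.comp h2)
    (h1.trans (ball_subset_ball' (by simp; nlinarith)))
    (fun x hx => (hτ.eq _ (h2 hx)).trans (hs.eq x (h1 hx))) (mem_ball_self ht)
    (by simp [hs.self hρ, hτ.self hρ])
  exact fun x hx y hy e => (h3 hx).symm.trans ((congrArg τ e).trans (h3 hy))

theorem exists_period {B : Set E} (hi : InjOn σ B) {N : ℕ} (hB : ∀ k ≤ N, σ^[k] a ∈ B)
    (hc : ∀ P : Finset E, (∀ z ∈ P, ∃ k ≤ N, z = σ^[k] a) → P.card ≤ N) :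
    ∃ m, 0 < m ∧ m ≤ N ∧ σ^[m] a = a := by
  classical
  have h1 : ∀ m i, i + m ≤ N → σ^[i] a = σ^[i + m] a → σ^[m] a = a := by
    intro m i
    induction i with
    | zero => intro _ h; simpa using h.symm
    | succ i ih =>
      intro h1 h2
      rw [add_right_comm, iterate_succ_apply', iterate_succ_apply'] at h2
      exact ih (by omega) (hi (hB _ (by omega)) (hB _ (by omega)) h2)
  obtain ⟨i, hi, j, hj, hne, he⟩ := Finset.exists_ne_map_eq_of_card_lt_of_maps_to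
    (s := Finset.range (N + 1)) (t := (Finset.range (N + 1)).image fun k => σ^[k] a)
    (f := fun k => σ^[k] a) (by
      rw [Finset.card_range, Nat.lt_succ_iff]
      refine hc _ fun z hz => ?_
      obtain ⟨k, hk, rfl⟩ := Finset.mem_image.1 hz
      exact ⟨k, by simpa [Nat.lt_succ_iff] using hk, rfl⟩)
    fun k hk => Finset.mem_image_of_mem _ hk
  rw [Finset.mem_range] at hi hj
  rcases lt_or_gt_of_ne hne with h | h
  · obtain ⟨m, rfl⟩ := Nat.exists_eq_add_of_le h.le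
    exact ⟨m, by omega, by omega, h1 m i (by omega) he⟩
  · obtain ⟨m, rfl⟩ := Nat.exists_eq_add_of_le h.le
    exact ⟨m, by omega, by omega, h1 m j (by omega) he.symm⟩

theorem Dk.eq_of_close (h : Dk φ U r L C) (hL : 0 ≤ L) (hC : 0 ≤ C) {N : ℕ} {s t δ : ℝ}
    (hr : (L + 2) * ρ ≤ r) (hδ : 2 * (N + 1) * (L + 1) ^ N * δ ≤ t)
    (h1 : 4 * (L + 1) ^ (N + 1) * t ≤ ρ) (h2 : 16 * N * (L + 1) ^ N * C * t < 1)
    (h3 : 3 * (L + 1) ^ N * t ≤ s) (ha : ‖a‖ < δ) (hb : ‖b‖ < δ) (he : φ b = φ a)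
    (hN : ∀ P : Finset E, (∀ z ∈ P, ‖z‖ < s ∧ φ z = φ a) → P.card ≤ N) : b = a := by
  have hδ0 := (norm_nonneg _).trans_lt ha
  have hΛ : 1 ≤ (L + 1) ^ N := one_le_pow₀ (by linarith)
  set Λ := (L + 1) ^ N with hΛ'
  have hN0 : (0 : ℝ) ≤ N := N.cast_nonneg
  have hδt : 2 * δ ≤ t := by nlinarith [mul_nonneg hN0 (mul_pos (one_pos.trans_le hΛ) hδ0).le]
  have ht : 0 < t := by linarith
  rw [pow_succ, ← hΛ'] at h1
  have hΛt : t ≤ Λ * t := le_mul_of_one_le_left ht.le hΛ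
  have h4 : 4 * (Λ * t) ≤ ρ := by nlinarith [mul_nonneg hL (ht.le.trans hΛt)]
  have hρ : 0 < ρ := by linarith
  obtain ⟨σ, hσ⟩ := h.exists_deck (a := a) hL hρ (by nlinarith) (by nlinarith) he
  have hba : ‖b - a‖ ≤ 2 * δ := (norm_sub_le _ _).trans (by linarith)
  have hD : ball a ρ ⊆ ball 0 r := ball_subset_ball' (by simp; nlinarith)
  have hk : ∀ k ≤ N, (L + 1) ^ k ≤ Λ := fun k hk => pow_le_pow_right₀ (by linarith) hk
  have h5 : ∀ k ≤ N, ∀ y ∈ ball a (2 * t), ‖σ^[k] y - a‖ ≤ Λ * (2 * t) := fun k hkN y hy =>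
    (hσ.iter_le hL (by linarith) (N := N) (by linarith) (mem_ball_iff_norm.1 hy).le k hkN).trans
      (by gcongr; exact hk k hkN)
  have h6 : ∀ k ≤ N, MapsTo σ^[k] (ball a (2 * t)) (ball a ρ) := fun k hkN y hy =>
    mem_ball_iff_norm.2 ((h5 k hkN y hy).trans_lt (by linarith))
  have h7 : ∀ k ≤ N, ContinuousOn σ^[k] (ball a (2 * t)) ∧
      ∀ y ∈ ball a (2 * t), φ (σ^[k] y) = φ y := by
    intro k
    induction k with
    | zero => exact fun _ => ⟨continuousOn_id, fun _ _ => rfl⟩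
    | succ k ih =>
      intro hkN
      rw [iterate_succ']
      exact ⟨hσ.cont.comp (ih (by omega)).1 (h6 k (by omega)),
        fun y hy => (hσ.eq _ (h6 k (by omega) hy)).trans ((ih (by omega)).2 y hy)⟩
  have ha2 : a ∈ ball a (2 * t) := mem_ball_self (by linarith)
  obtain ⟨m, hm0, hmN, hm⟩ := exists_period (a := a) (N := N)
    (h.injOn_deck hL hρ hσ (by nlinarith) (by nlinarith) (t := Λ * (3 * t)) (by positivity)
      (by nlinarith [mul_nonneg hL (ht.le.trans hΛt)]))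
    (fun k hkN => mem_ball_iff_norm.2 ((h5 k hkN a ha2).trans_lt (by linarith)))
    fun P hP => hN P fun z hz => by
      obtain ⟨k, hkN, rfl⟩ := hP z hz
      refine ⟨?_, (h7 k hkN).2 a ha2⟩
      have := norm_le_norm_sub_add (σ^[k] a) a
      linarith [h5 k hkN a ha2]
  have h8 := lift_unique h.loc isOpen_ball (convex_ball a (2 * t)).isPreconnected (h7 m hmN).1
    continuousOn_id ((h6 m hmN).mono_right hD)
    ((ball_subset_ball (by linarith)).trans hD) (h7 m hmN).2 ha2 hm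
  have h9 : closedBall a t ⊆ ball a (2 * t) := closedBall_subset_ball (by linarith)
  have hmN' : (m : ℝ) ≤ N := by exact_mod_cast hmN
  obtain ⟨z, hz, hz'⟩ := exists_fixed (σ := σ) (a := a) hm0 (t := t) (R := Λ * (2 * t))
    (e := Λ * (2 * δ)) hC ht.le (fun k hkm x hx => by
      have h10 := h.bd σ^[k] x (hD (h6 0 (by omega) (h9 hx))) (hD (h6 k (by omega) (h9 hx)))
        ((h7 k (by omega)).1.continuousAt (isOpen_ball.mem_nhds (h9 hx)))
        (mem_of_superset (isOpen_ball.mem_nhds (h9 hx)) (h7 k (by omega)).2)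
      exact ⟨⟨h10.1, h10.2.2⟩, h5 k (by omega) x (h9 hx)⟩)
    (fun x hx => h8 (h9 hx))
    (fun k hkm => (hσ.iter_le hL hba (N := N) (by nlinarith) (by simp; linarith) k
      (by omega)).trans (by gcongr; exact hk k (by omega)))
    (by
      have h10 : ((N + 1) * (Λ * (2 * δ))) ^ 2 ≤ t ^ 2 := by gcongr; linarith
      nlinarith [sq_nonneg (Λ * (2 * δ)), mul_nonneg hN0 (sq_nonneg (Λ * (2 * δ))),
        mul_nonneg (mul_nonneg hN0 hN0) (sq_nonneg (Λ * (2 * δ)))])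
    (by
      have h10 : 0 ≤ Λ * C * t := by positivity
      nlinarith)
  have h10 := lift_unique h.loc isOpen_ball (convex_ball a ρ).isPreconnected hσ.cont
    continuousOn_id hσ.mem hD hσ.eq (h6 0 (by omega) (h9 hz)) hz'
  exact (hσ.self hρ).symm.trans (h10 (mem_ball_self hρ))

/-- many preimages of one point give many preimages of all nearby points -/
theorem Dk.fiber (h : Dk φ U r L C) (hL : 0 ≤ L) {s : ℝ} (hs : (2 * L + 3) * s ≤ r) {P : Finset E}
    (hP : ∀ z ∈ P, ‖z‖ < s ∧ φ z = φ a) (ha : ‖a‖ < s) {x : E} (hx : ‖x‖ < s) :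
    ∃ Q : Finset E, Q.card = P.card ∧ ∀ z ∈ Q, z ∈ ball (0 : E) r ∧ φ z = φ x := by
  classical
  have h0 := (norm_nonneg _).trans_lt ha
  have h1 : 0 < 2 * s := by linarith
  choose! σ hσ using fun z (hz : z ∈ P) => h.exists_deck (a := a) hL h1 (by nlinarith)
    (by nlinarith [(hP z hz).1]) (hP z hz).2
  have h2 : x ∈ ball a (2 * s) := mem_ball_iff_norm.2 ((norm_sub_le _ _).trans_lt (by linarith))
  refine ⟨P.image fun z => σ z x, Finset.card_image_of_injOn fun z hz z' hz' e => ?_, fun z hz => ?_⟩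
  · have h3 := lift_unique h.loc isOpen_ball (convex_ball a (2 * s)).isPreconnected (hσ z hz).cont
      (hσ z' hz').cont (hσ z hz).mem (hσ z' hz').mem
      (fun y hy => ((hσ z hz).eq y hy).trans ((hσ z' hz').eq y hy).symm) h2 e (mem_ball_self h1)
    rwa [(hσ z hz).self h1, (hσ z' hz').self h1] at h3
  · obtain ⟨b, hb, rfl⟩ := Finset.mem_image.1 hz
    exact ⟨(hσ b hb).mem h2, (hσ b hb).eq x h2⟩

theorem ev_mul_lt (c : ℝ) {d : ℝ} (hd : 0 < d) : ∀ᶠ t in 𝓝[>] (0 : ℝ), c * t < d :=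
  nhdsWithin_le_nhds ((by fun_prop : Continuous fun t : ℝ => c * t).continuousAt.eventually_lt
    continuousAt_const (by simpa using hd))

variable (E) in
/-- the injectivity radius is bounded below in terms of the volume of the image -/
theorem cgt [MeasurableSpace E] [BorelSpace E] (hL : 0 ≤ L) (hC : 0 ≤ C) {s : ℝ} (hs0 : 0 < s)
    (hs : (2 * L + 3) * s ≤ r) {v V : ℝ≥0∞} (hv : v ≠ 0) (hV : V ≠ ∞) :
    ∃ δ > 0, ∀ (X : Type) [TopologicalSpace X] [MeasurableSpace X] [BorelSpace X] (φ : E → X)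
      (U : Set X) (μ : Measure X) (ν : Measure E), Dk φ U r L C →
      (∀ W ⊆ ball 0 r, IsOpen W → InjOn φ W → ∀ A ⊆ W, MeasurableSet A → μ (φ '' A) ≤ ν A) →
      ν (ball 0 r) ≤ V → v ≤ μ (φ '' ball 0 s) → InjOn φ (ball 0 δ) := by
  obtain ⟨N, hN⟩ := ENNReal.exists_nat_gt (ENNReal.div_ne_top hV hv)
  have hr : 0 < r := by nlinarith
  obtain ⟨t, ⟨h1, h2⟩, h3, ht⟩ := (((ev_mul_lt (4 * (L + 1) ^ (N + 1)) (d := r / (L + 2))
    (by positivity)).and (ev_mul_lt (16 * N * (L + 1) ^ N * C) one_pos)).and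
    ((ev_mul_lt (3 * (L + 1) ^ N) hs0).and self_mem_nhdsWithin)).exists
  have ht' : 0 < t := ht
  refine ⟨t / (2 * (N + 1) * (L + 1) ^ N), by positivity, ?_⟩
  intro X _ _ _ φ U μ ν h hμ hν hvol a ha b hb he
  have hΛ : 1 ≤ (L + 1) ^ N := one_le_pow₀ (by linarith)
  have hδ : t / (2 * (N + 1) * (L + 1) ^ N) ≤ s := by
    refine (div_le_self ht'.le ?_).trans (by nlinarith)
    nlinarith [N.cast_nonneg (α := ℝ)]
  refine h.eq_of_close hL hC (N := N) (s := s) (t := t) (ρ := r / (L + 2))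
    (by rw [mul_div_cancel₀ _ (by positivity)]) (by rw [mul_div_cancel₀ _ (by positivity)])
    h1.le h2 h3.le (mem_ball_zero_iff.1 hb) (mem_ball_zero_iff.1 ha) he fun P hP => ?_
  have h4 := count h.loc isOpen_ball hμ (S := φ '' ball 0 s) (N := P.card) (by
    rintro _ ⟨x, hx, rfl⟩
    exact h.fiber hL hs hP ((mem_ball_zero_iff.1 hb).trans_le hδ) (mem_ball_zero_iff.1 hx))
  have h5 : (P.card : ℝ≥0∞) ≤ V / v := by
    rw [ENNReal.le_div_iff_mul_le (Or.inl hv) (Or.inr hV)]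
    exact le_trans (by gcongr) (h4.trans hν)
  exact_mod_cast (h5.trans_lt hN).le

end Vale.Agent.P216G
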