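import Vale.Agent.P216G.Lift
import Vale.Agent.P216G.Bd
import Mathlib.Analysis.InnerProductSpace.Basic
import Mathlib.Analysis.Calculus.MeanValue
import Mathlib.MeasureTheory.Integral.Lebesgue.Markov
import Mathlib.MeasureTheory.Constructions.BorelSpace.Real

/-!
# Local deck transformations and the injectivity radius estimate
-/

open Set Filter Topology Function Metric MeasureTheory
open scoped ENNReal

noncomputable section

namespace Vale.Agent.P216G

variable {E : Type} [NormedAddCommGroup E] [InnerProductSpace ℝ E] [FiniteDimensional ℝ E]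
  {X : Type} [TopologicalSpace X] {φ : E → X} {U : Set X} {r L C ρ : ℝ} {a b : E}

/-- a local homeomorphism on a ball whose local deck maps have bounded derivatives -/
structure Dk (φ : E → X) (U : Set X) (r L C : ℝ) : Prop where
  loc : IsLocalHomeomorphOn φ (ball 0 r)
  sep : Sep U
  maps : MapsTo φ (ball 0 r) U
  bd : ∀ (σ : E → E), ∀ x ∈ ball (0 : E) r, σ x ∈ ball (0 : E) r → ContinuousAt σ x →
    (∀ᶠ y in 𝓝 x, φ (σ y) = φ y) →
    ContDiffAt ℝ 2 σ x ∧ ‖fderiv ℝ σ x‖ ≤ L ∧ ‖fderiv ℝ (fderiv ℝ σ) x‖ ≤ C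

omit [FiniteDimensional ℝ E] in
theorem Dk.lift_le (h : Dk φ U r L C) {w : E} {T : ℝ} (hT : 0 ≤ T)
    (hm : ∀ t ∈ Icc 0 T, a + t • w ∈ ball (0 : E) r) {Γ : ℝ → E}
    (hΓ : IsLift φ (ball 0 r) (fun t => φ (a + t • w)) b T Γ) : ‖Γ T - b‖ ≤ L * ‖w‖ * T := by
  have h1 : ∀ t ∈ Icc 0 T, ∃ v, HasDerivWithinAt Γ v (Icc 0 T) t ∧ ‖v‖ ≤ L * ‖w‖ := by
    intro t ht
    obtain ⟨q, h2, -, h3⟩ := exists_chart h.loc isOpen_ball (hΓ.mem t ht)
    have h4 : φ (a + t • w) ∈ q.target := by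
      rw [← hΓ.eq t ht, h3]; exact q.map_source h2
    have h5 := h.loc.continuousAt (hm t ht)
    have h6 : q.symm (φ (a + t • w)) = Γ t := by
      rw [← hΓ.eq t ht, h3, q.left_inv h2]
    obtain ⟨h7, h8, -⟩ := h.bd (fun y => q.symm (φ y)) _ (hm t ht) (by rw [h6]; exact hΓ.mem t ht)
      ((q.continuousAt_symm h4).comp h5) (by
        filter_upwards [h5 (q.open_target.mem_nhds h4)] with y hy
        exact (congrFun h3 _).trans (q.right_inv hy))
    have h9 : HasDerivAt (fun t : ℝ => a + t • w) w t := by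
      simpa using ((hasDerivAt_id t).smul_const w).const_add a
    have h10 := (h7.differentiableAt (by simp)).hasFDerivAt.comp_hasDerivAt t h9
    refine ⟨_, h10.hasDerivWithinAt.congr_of_eventuallyEq (hΓ.eventuallyEq ht q h3 h2) h6.symm, ?_⟩
    exact (ContinuousLinearMap.le_opNorm _ _).trans (by gcongr)
  choose! v hv using h1
  have := norm_image_sub_le_of_norm_deriv_le_segment' (fun t ht => (hv t ht).1)
    (fun t ht => (hv t (Ico_subset_Icc_self ht)).2) T ⟨hT, le_rfl⟩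
  rwa [hΓ.zero, sub_zero] at this

/-- a deck map on the ball of radius `ρ` about `a` sending `a` to `b` -/
structure Deck (φ : E → X) (r L ρ : ℝ) (a b : E) (σ : E → E) : Prop where
  cont : ContinuousOn σ (ball a ρ)
  eq : ∀ x ∈ ball a ρ, φ (σ x) = φ x
  le : ∀ x ∈ ball a ρ, ‖σ x - b‖ ≤ L * ‖x - a‖
  mem : MapsTo σ (ball a ρ) (ball 0 r)

theorem Dk.exists_deck (h : Dk φ U r L C) (hL : 0 ≤ L) (hρ : 0 < ρ) (ha : ‖a‖ + ρ ≤ r)
    (hb : ‖b‖ + L * ρ < r) (he : φ b = φ a) : ∃ σ, Deck φ r L ρ a b σ := by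
  have hD : ball a ρ ⊆ ball 0 r := ball_subset_ball' (by simpa [add_comm] using ha)
  have hm : ∀ x ∈ ball a ρ, ∀ t ∈ Icc (0 : ℝ) 1, a + t • (x - a) ∈ ball (0 : E) r :=
    fun x hx t ht => hD ((convex_ball a ρ).add_smul_sub_mem (mem_ball_self hρ) hx ht)
  have hK : closedBall b (L * ρ) ⊆ ball 0 r := closedBall_subset_ball' (by simpa [add_comm] using hb)
  have hc : Continuous fun q : ℝ × E => a + q.1 • (q.2 - a) := by fun_prop
  have h1 : ∀ x ∈ ball a ρ, ∃ Γ, IsLift φ (ball 0 r) (fun t => φ (a + t • (x - a))) b 1 Γ := by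
    intro x hx
    refine exists_lift h.loc isOpen_ball h.sep h.maps zero_le_one
      (h.loc.continuousOn.comp (by fun_prop) (hm x hx)) (fun t ht => h.maps (hm x hx t ht))
      (hK (mem_closedBall_self (by positivity))) (by simpa using he) (isCompact_closedBall _ _) hK
      fun T hT Γ hΓ => ?_
    refine mem_closedBall_iff_norm.2 ((h.lift_le hT.1
      (fun t ht => hm x hx t ⟨ht.1, ht.2.trans hT.2⟩) hΓ).trans ?_)
    have := (mem_ball_iff_norm.1 hx).le
    exact (mul_le_of_le_one_right (by positivity) hT.2).trans (by gcongr)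
  choose! Γ hΓ using h1
  refine ⟨fun x => Γ x 1, continuousOn_lift h.loc isOpen_ball
    (h.loc.continuousOn.comp hc.continuousOn fun q hq => hm _ hq.2 _ hq.1) continuousOn_const hΓ,
    fun x hx => by simpa using (hΓ x hx).eq 1 ⟨zero_le_one, le_rfl⟩,
    fun x hx => by simpa using h.lift_le zero_le_one (hm x hx) (hΓ x hx),
    fun x hx => (hΓ x hx).mem 1 ⟨zero_le_one, le_rfl⟩⟩

omit [InnerProductSpace ℝ E] [FiniteDimensional ℝ E] [TopologicalSpace X] in
theorem Deck.self {σ : E → E} (h : Deck φ r L ρ a b σ) (hρ : 0 < ρ) : σ a = b := by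
  simpa [sub_eq_zero] using h.le a (mem_ball_self hρ)

/-- counting with multiplicity -/
theorem count [MeasurableSpace E] [BorelSpace E] [MeasurableSpace X] [BorelSpace X] {O : Set E}
    (hφ : IsLocalHomeomorphOn φ O) (hO : IsOpen O) {μ : Measure X} {ν : Measure E}
    (hμ : ∀ V ⊆ O, IsOpen V → InjOn φ V → ∀ A ⊆ V, MeasurableSet A → μ (φ '' A) ≤ ν A)
    {S : Set X} {N : ℕ}
    (hS : ∀ q ∈ S, ∃ P : Finset E, P.card = N ∧ ∀ z ∈ P, z ∈ O ∧ φ z = q) : N * μ S ≤ ν O := by
  classical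
  rcases O.eq_empty_or_nonempty with rfl | hne
  · rcases S.eq_empty_or_nonempty with rfl | ⟨q, hq⟩
    · simp
    · obtain ⟨P, rfl, h2⟩ := hS q hq
      rw [Finset.eq_empty_of_forall_notMem fun z hz => (h2 z hz).1]
      simp
  have : Nonempty (OpenPartialHomeomorph E X) := ⟨(exists_chart hφ hO hne.some_mem).choose⟩
  choose! q hq using fun z (hz : z ∈ O) => exists_chart hφ hO hz
  obtain ⟨T, hTO, hT, hc⟩ := TopologicalSpace.countable_cover_nhdsWithin
    (f := fun z => (q z).source) (s := O)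
    fun z hz => mem_nhdsWithin_of_mem_nhds ((q z).open_source.mem_nhds (hq z hz).1)
  have hTne : T.Nonempty := by
    obtain ⟨z, hz⟩ := hne
    obtain ⟨i, hi, -⟩ := mem_iUnion₂.1 (hc hz)
    exact ⟨i, hi⟩
  obtain ⟨c, rfl⟩ := hT.exists_eq_range hTne
  have hc' : ∀ i, c i ∈ O := fun i => hTO (mem_range_self i)
  set W : ℕ → Set E := disjointed fun i => (q (c i)).source with hW
  have h1 : ∀ i, W i ⊆ (q (c i)).source := disjointed_subset _
  have h2 : ∀ i, MeasurableSet (W i) :=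
    MeasurableSet.disjointed fun i => (q (c i)).open_source.measurableSet
  have h3 : ∀ i, InjOn φ (q (c i)).source := fun i => by
    rw [(hq _ (hc' i)).2.2]; exact (q (c i)).injOn
  have h4 : ∀ i, MeasurableSet (φ '' W i) := fun i => by
    have h5 := ((q (c i)).continuousOn_symm.measurable_piecewise
      (continuousOn_const (c := (0 : E))) (q (c i)).open_target.measurableSet) (h2 i)
    convert (q (c i)).open_target.measurableSet.inter h5 using 1
    conv_lhs => rw [(hq _ (hc' i)).2.2, (q (c i)).image_eq_target_inter_inv_preimage (h1 i)]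
    ext y
    refine and_congr_right fun hy => ?_
    simp [piecewise_eq_of_mem _ _ _ hy]
  have h5 : ⋃ i, W i = O := by
    rw [hW, iUnion_disjointed]
    refine (iUnion_subset fun i => (hq _ (hc' i)).2.1).antisymm ?_
    simpa using hc
  have h6 : Measurable fun y => ∑' i, (φ '' W i).indicator (1 : X → ℝ≥0∞) y :=
    Measurable.ennreal_tsum fun i => measurable_one.indicator (h4 i)
  calc N * μ S ≤ N * μ {y | (N : ℝ≥0∞) ≤ ∑' i, (φ '' W i).indicator (1 : X → ℝ≥0∞) y} := by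
        gcongr
        intro y hy
        obtain ⟨P, rfl, hP⟩ := hS y hy
        choose! j hj using fun z (hz : z ∈ P) => mem_iUnion.1 (h5.ge (hP z hz).1)
        refine le_trans ?_ (ENNReal.sum_le_tsum (P.image j))
        rw [Finset.sum_image fun z hz z' hz' (e : j z = j z') => h3 (j z) (h1 _ (hj z hz))
          (h1 _ (by rw [e]; exact hj z' hz')) ((hP z hz).2.trans (hP z' hz').2.symm), Finset.card_eq_sum_ones]
        push_cast
        refine Finset.sum_le_sum fun z hz => ?_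
        rw [indicator_of_mem (mem_image_of_mem φ (hj z hz) |> (hP z hz).2.subst)]
        rfl
    _ ≤ ∑' i, μ (φ '' W i) := by
        refine (mul_meas_ge_le_lintegral h6 _).trans_eq ?_
        rw [lintegral_tsum fun i => (measurable_one.indicator (h4 i)).aemeasurable]
        simp [lintegral_indicator_one (h4 _)]
    _ ≤ ∑' i, ν (W i) := ENNReal.tsum_le_tsum fun i =>
        hμ _ (hq _ (hc' i)).2.1 (q (c i)).open_source (h3 i) _ (h1 i) (h2 i)
    _ = ν O := by rw [← h5, measure_iUnion (disjoint_disjointed _) h2]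

omit [FiniteDimensional ℝ E] in
theorem midpoint_le {f : E → E} {B : Set E} (hB : Convex ℝ B) (hC : 0 ≤ C)
    (hf : ∀ x ∈ B, ContDiffAt ℝ 2 f x ∧ ‖fderiv ℝ (fderiv ℝ f) x‖ ≤ C) {z z' : E} (hz : z ∈ B)
    (hz' : z' ∈ B) : ‖f (midpoint ℝ z z') - midpoint ℝ (f z) (f z')‖ ≤ C * ‖z - z'‖ ^ 2 := by
  have hw := midpoint_mem_segment (𝕜 := ℝ) z z'
  have hs := hB.segment_subset hz hz'
  have h1 : ∀ x ∈ segment ℝ z z', ∀ y ∈ segment ℝ z z', ‖x - y‖ ≤ ‖z - z'‖ := fun x hx y hy => by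
    rw [← dist_eq_norm, ← dist_eq_norm]
    exact (convex_closedBall y _).segment_subset
      (mem_closedBall'.2 (segment_subset_closedBall_left z z' hy))
      (mem_closedBall'.2 (segment_subset_closedBall_right z z' hy)) hx
  have h2 : ∀ y ∈ segment ℝ z z', ‖f y - f (midpoint ℝ z z') -
      fderiv ℝ f (midpoint ℝ z z') (y - midpoint ℝ z z')‖ ≤ C * ‖z - z'‖ ^ 2 := fun y hy => by
    refine ((convex_segment z z').norm_image_sub_le_of_norm_fderiv_le' (C := C * ‖z - z'‖)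
      (fun x hx => (hf x (hs hx)).1.differentiableAt (by simp)) (fun x hx => ?_) hw hy).trans ?_
    · refine ((convex_segment z z').norm_image_sub_le_of_norm_fderiv_le (𝕜 := ℝ)
        (fun x hx => ((hf x (hs hx)).1.fderiv_right (m := 1) (by norm_num)).differentiableAt
          (by simp)) (fun x hx => (hf x (hs hx)).2) hw hx).trans ?_
      gcongr
      exact h1 _ hx _ hw
    · rw [sq, ← mul_assoc]
      gcongr
      exact h1 _ hy _ hw
  have h3 := h2 z (left_mem_segment _ _ _)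
  have h4 := h2 z' (right_mem_segment _ _ _)
  have h5 : z' - midpoint ℝ z z' = -(z - midpoint ℝ z z') := by
    rw [midpoint_eq_smul_add, invOf_eq_inv]; module
  rw [h5, map_neg] at h4
  have h6 := norm_add_le_of_le h3 h4
  generalize fderiv ℝ f (midpoint ℝ z z') (z - midpoint ℝ z z') = u at h6
  generalize f (midpoint ℝ z z') = w at h6 ⊢
  have h7 : f z - w - u + (f z' - w - -u) = (-2 : ℝ) • (w - midpoint ℝ (f z) (f z')) := by
    rw [midpoint_eq_smul_add, invOf_eq_inv]; module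
  rw [h7, norm_smul] at h6
  norm_num at h6
  linarith

omit [FiniteDimensional ℝ E] in
theorem sq_mid_le {u u' w a : E} {R η : ℝ} (hu : ‖u - a‖ ≤ R) (hu' : ‖u' - a‖ ≤ R)
    (hw : ‖w - a‖ ≤ R) (h : ‖w - midpoint ℝ u u'‖ ≤ η) :
    ‖w - a‖ ^ 2 ≤ (‖u - a‖ ^ 2 + ‖u' - a‖ ^ 2) / 2 - ‖u - u'‖ ^ 2 / 4 + 2 * R * η := by
  have h1 := parallelogram_law_with_norm ℝ (u - a) (u' - a)
  have h2 : u - a + (u' - a) = (2 : ℝ) • (midpoint ℝ u u' - a) := by
    rw [midpoint_eq_smul_add, invOf_eq_inv]; module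
  have h3 := norm_add_le_of_le hu hu'
  rw [h2, norm_smul, Real.norm_ofNat] at h1 h3
  rw [sub_sub_sub_cancel_right] at h1
  have h4 : ‖w - a‖ ≤ η + ‖midpoint ℝ u u' - a‖ := by
    rw [← sub_add_sub_cancel w (midpoint ℝ u u') a]; exact norm_add_le_of_le h le_rfl
  have h5 := (norm_nonneg _).trans h
  nlinarith [norm_nonneg (w - a), norm_nonneg (midpoint ℝ u u' - a)]

/-- a periodic map which is almost affine and moves `a` very little has a fixed point -/
theorem exists_fixed {σ : E → E} {m : ℕ} (hm : 0 < m) {t R e : ℝ} (hC : 0 ≤ C) (ht : 0 ≤ t)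
    (hf : ∀ k < m, ∀ x ∈ closedBall a t, (ContDiffAt ℝ 2 σ^[k] x ∧
      ‖fderiv ℝ (fderiv ℝ σ^[k]) x‖ ≤ C) ∧ ‖σ^[k] x - a‖ ≤ R)
    (hp : ∀ x ∈ closedBall a t, σ^[m] x = x) (ha : ∀ k < m, ‖σ^[k] a - a‖ ≤ e)
    (he : m * e ^ 2 ≤ t ^ 2) (hR : 8 * m * R * C < 1) : ∃ z ∈ closedBall a t, σ z = z := by
  set F : E → ℝ := fun y => ∑ k ∈ Finset.range m, ‖σ^[k] y - a‖ ^ 2 with hF
  obtain ⟨z, hz, h1⟩ := (isCompact_closedBall a t).exists_isMinOn (f := F)
    ⟨a, mem_closedBall_self ht⟩ (continuousOn_finset_sum _ fun k hk x hx =>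
      ((((hf k (Finset.mem_range.1 hk) x hx).1.1.continuousAt.sub
        continuousAt_const).norm).pow 2).continuousWithinAt)
  have h2 : F (σ z) = F z := by
    have h3 := Finset.sum_range_succ (fun k => ‖σ^[k] z - a‖ ^ 2) m
    rw [Finset.sum_range_succ', hp z hz] at h3
    exact add_right_cancel h3
  have h3 : F a ≤ t ^ 2 := by
    refine (Finset.sum_le_card_nsmul _ _ (e ^ 2) fun k hk => ?_).trans (by simpa using he)
    gcongr
    exact ha k (Finset.mem_range.1 hk)
  have h4 : σ z ∈ closedBall a t := by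
    refine mem_closedBall_iff_norm.2 ((pow_le_pow_iff_left₀ (norm_nonneg _) ht two_ne_zero).1 ?_)
    refine le_trans ?_ (h2.trans_le ((h1 (mem_closedBall_self ht)).trans h3))
    exact Finset.single_le_sum (f := fun k => ‖σ^[k] (σ z) - a‖ ^ 2) (fun _ _ => sq_nonneg _)
      (Finset.mem_range.2 hm)
  refine ⟨z, hz, by_contra fun hne => ?_⟩
  have hw := (convex_closedBall a t).midpoint_mem hz h4
  have h5 : F z ≤ F (midpoint ℝ z (σ z)) := h1 hw
  have h6 : F (midpoint ℝ z (σ z)) ≤ ∑ k ∈ Finset.range m, ((‖σ^[k] z - a‖ ^ 2 +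
      ‖σ^[k] (σ z) - a‖ ^ 2) / 2 - ‖σ^[k] z - σ^[k] (σ z)‖ ^ 2 / 4 +
        2 * R * (C * ‖z - σ z‖ ^ 2)) := Finset.sum_le_sum fun k hk => by
    have h7 := hf k (Finset.mem_range.1 hk)
    exact sq_mid_le (h7 z hz).2 (h7 _ h4).2 (h7 _ hw).2
      (midpoint_le (convex_closedBall a t) hC (fun x hx => (h7 x hx).1) hz h4)
  have h7 : ‖z - σ z‖ ^ 2 ≤ ∑ k ∈ Finset.range m, ‖σ^[k] z - σ^[k] (σ z)‖ ^ 2 :=
    Finset.single_le_sum (f := fun k => ‖σ^[k] z - σ^[k] (σ z)‖ ^ 2) (fun _ _ => sq_nonneg _)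
      (Finset.mem_range.2 hm)
  simp only [Finset.sum_add_distrib, Finset.sum_sub_distrib, ← Finset.sum_div, Finset.sum_const,
    Finset.card_range, nsmul_eq_mul] at h6
  have h8 : 0 < ‖z - σ z‖ ^ 2 := by
    have := norm_pos_iff.2 (sub_ne_zero.2 (Ne.symm hne))
    positivity
  simp only [hF] at h2 h5 h6
  nlinarith

end Vale.Agent.P216G
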