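import Vale.Agent.P216G.Norm
import Vale.Agent.P216G.CGT
import Vale.Agent.P216U.Conv
import Vale.Agent.P216FI.Vol2

/-!
# Normal coordinates along a filter: jets, deck maps, injectivity radius
-/

open Set Topology Function Metric MeasureTheory Module
open Filter hiding comap comap_id
open scoped ContDiff Manifold ENNReal

set_option maxSynthPendingDepth 3

noncomputable section

namespace Vale.Agent.P216G

open Vale.Agent.P219.RG Vale.Agent.P216R Vale.Agent.P216CP Vale.Agent.P216BF Vale.Agent.P216U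

/-- the filter on pairs `⟨n, a⟩` with `n` along `l` and `a ∈ S n` -/
def sg {ι : Type} {α : ι → Type} (l : Filter ι) (S : ∀ n, Set (α n)) : Filter (Σ n, α n) :=
  Filter.comap Sigma.fst l ⊓ 𝓟 {q | q.2 ∈ S q.1}

theorem ev_sg {ι : Type} {α : ι → Type} {l : Filter ι} {S : ∀ n, Set (α n)}
    {P : (Σ n, α n) → Prop} : (∀ᶠ q in sg l S, P q) ↔ ∀ᶠ n in l, ∀ a ∈ S n, P ⟨n, a⟩ := by
  rw [sg, eventually_inf_principal, eventually_comap]
  refine eventually_congr (.of_forall fun n => ⟨fun h a ha => h ⟨n, a⟩ rfl ha, ?_⟩)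
  rintro h ⟨m, a⟩ rfl ha
  exact h a ha

theorem tendsto_sg_fst {ι : Type} {α : ι → Type} {l : Filter ι} {S : ∀ n, Set (α n)} :
    Tendsto Sigma.fst (sg l S) l := tendsto_comap.mono_left inf_le_left

theorem tendsto_sg {ι : Type} {α : ι → Type} {l : Filter ι} {S : ∀ n, Set (α n)} {y : ∀ n, α n}
    (h : ∀ᶠ n in l, y n ∈ S n) : Tendsto (fun n => (⟨n, y n⟩ : Σ n, α n)) l (sg l S) :=
  tendsto_def.2 fun _ hP => by
    filter_upwards [ev_sg.1 hP, h] with n h1 h2 using h1 _ h2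

variable {E : Type} [NormedAddCommGroup E] [InnerProductSpace ℝ E] [FiniteDimensional ℝ E]

section One

variable {M : Type} [TopologicalSpace M] [ChartedSpace E M]
  {g : Ten E M} {U : Set M} {p : M} {R r : ℝ} {φ : E → M} {v : E}

/-- normal coordinates on a ball which is small with respect to the curvature -/
structure Gd (g : Ten E M) (U : Set M) (p : M) (r : ℝ) (φ : E → M) : Prop where
  cx : Cx g U p r
  nc : IsNC g U p φ
  rm : ∃ K, 0 ≤ K ∧ (∀ y ∈ bl g U p r, RmB g 0 y K) ∧ K * r ^ 2 ≤ 1 / 6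

omit [FiniteDimensional ℝ E] in
theorem Gd.mono (h : Gd g U p R φ) (h0 : 0 ≤ r) (hr : r ≤ R) : Gd g U p r φ :=
  let ⟨K, h1, h2, h3⟩ := h.rm
  ⟨h.cx.mono hr, h.nc, K, h1, fun y hy => h2 y (bl_mono hr hy), le_trans (by gcongr) h3⟩

omit [FiniteDimensional ℝ E] [ChartedSpace E M] in
theorem sep_of_hs (h : Hs U) : Sep U := fun _ hx _ hy hn =>
  by_contra fun hne => hn.ne (disjoint_iff.1 (h hx hy hne))

variable [IsManifold 𝓘(ℝ, E) ∞ M]

theorem Gd.ld (h : Gd g U p r φ) : LD E φ (ball 0 r) :=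
  let ⟨_, h1, h2, h3⟩ := h.rm; h.nc.ld h.cx h1 h2 h3

theorem Gd.bounds (h : Gd g U p r φ) (hv : v ∈ ball (0 : E) r) (ξ : E) :
    1 / 4 * ‖ξ‖ ^ 2 ≤ comap φ g v ξ ξ ∧ comap φ g v ξ ξ ≤ 9 / 4 * ‖ξ‖ ^ 2 :=
  let ⟨_, h1, h2, h3⟩ := h.rm; h.nc.bounds h.cx h1 h2 h3 hv ξ

theorem Gd.ed_le (h : Gd g U p r φ) {a b : E} (ha : a ∈ ball (0 : E) r) (hb : b ∈ ball (0 : E) r) :
    ed g U (φ a) (φ b) ≤ ENNReal.ofReal (3 / 2 * ‖a - b‖) :=
  let ⟨_, h1, h2, h3⟩ := h.rm; h.nc.ed_le h.cx h1 h2 h3 ha hb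

theorem Gd.mapsU (h : Gd g U p r φ) : MapsTo φ (ball 0 r) U := h.nc.mapsU h.cx

theorem Gd.image (h : Gd g U p r φ) : φ '' ball 0 r = bl g U p r := h.nc.image h.cx le_rfl

theorem Gd.met (h : Gd g U p r φ) : Met (comap φ g) (ball 0 r) := h.cx.met.comap h.ld h.mapsU

/-- local deck maps are local isometries -/
theorem deck_iso {V : Set E} (hφ : LD E φ V) (g : Ten E M) {σ : E → E} {x : E} (hx : x ∈ V)
    (hσx : σ x ∈ V) (hc : ContinuousAt σ x) (he : ∀ᶠ y in 𝓝 x, φ (σ y) = φ y) :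
    ContDiffAt ℝ ∞ σ x ∧ ∀ᶠ y in 𝓝 x, σ y ∈ V ∧ ∀ u w,
      comap φ g y u w = comap φ g (σ y) (fderiv ℝ σ y u) (fderiv ℝ σ y w) := by
  obtain ⟨k, k1, k2, -⟩ := exists_inv (hφ.sm hσx) (hφ.inj _ hσx)
  rw [he.self_of_nhds] at k1
  have h1 : SM E σ x := (k1.comp x (hφ.sm hx)).congr_of_eventuallyEq (by
    filter_upwards [hc.eventually k2, he] with y h1 h2
    rw [comp_apply, ← h2, h1])
  refine ⟨h1.contDiffAt, ?_⟩
  filter_upwards [h1.eventually, hc.eventually (hφ.isOpen.mem_nhds hσx), he.eventually_nhds]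
    with y h2 h3 h4
  refine ⟨h3, fun u w => ?_⟩
  rw [← comap_model, comap_comp g (hφ.md h3) h2, comap_congr g (f := φ ∘ σ) h4]

variable (E) in
/-- the Euclidean metric -/
def eu : E → Bil E := fun _ => innerSL ℝ

omit [FiniteDimensional ℝ E] in
theorem eu_self (x v : E) : eu E x v v = ‖v‖ ^ 2 := real_inner_self_eq_norm_sq v

omit [FiniteDimensional ℝ E] in
theorem met_eu : Met (eu E) univ :=
  met_model.2 ⟨isOpen_univ, contDiffOn_const, fun _ _ v w => real_inner_comm w v,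
    fun _ _ v hv => by rw [eu_self]; positivity⟩

variable [MeasurableSpace E] [BorelSpace E] [MeasurableSpace M] [BorelSpace M]

theorem vol_eu_ne_top (r : ℝ) : vol (eu E) (ball 0 r) ≠ ⊤ :=
  ((measure_mono ball_subset_closedBall).trans_lt
    (vol_lt_top met_eu (isCompact_closedBall 0 r) (subset_univ _))).ne

theorem vol_eu_ne_zero (hr : 0 < r) : vol (eu E) (ball 0 r) ≠ 0 :=
  (vol_pos met_eu (mem_univ 0) (ball_mem_nhds 0 hr)).ne'

omit [MeasurableSpace M] [BorelSpace M] in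
theorem Gd.vol_comap_le (h : Gd g U p r φ) : vol (comap φ g) (ball 0 r) ≤
    ENNReal.ofReal ((3 / 2) ^ finrank ℝ E) * vol (eu E) (ball 0 r) :=
  vol_le_mul (HereditarilyLindelofSpace.isLindelof _) measurableSet_ball Subset.rfl (by norm_num)
    (fun _ hx => h.met.pd hx) (fun x _ => met_eu.pd (mem_univ x)) fun x hx v => by
      rw [eu_self]; linarith [(h.bounds hx v).2]

theorem Gd.vol_le (h : Gd g U p r φ) : vol g (bl g U p r) ≤
    ENNReal.ofReal ((3 / 2) ^ finrank ℝ E) * vol (eu E) (ball 0 r) := by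
  rw [← h.image]
  exact (vol_image_le g h.ld (HereditarilyLindelofSpace.isLindelof _) Subset.rfl
    measurableSet_ball Subset.rfl).trans h.vol_comap_le

theorem Gd.le_vol (h : Gd g U p r φ) (hi : InjOn φ (ball 0 r)) : vol (eu E) (ball 0 r) ≤
    ENNReal.ofReal (2 ^ finrank ℝ E) * vol g (bl g U p r) := by
  rw [← h.image, vol_image g h.ld hi (HereditarilyLindelofSpace.isLindelof _) Subset.rfl
    measurableSet_ball Subset.rfl]
  exact vol_le_mul (HereditarilyLindelofSpace.isLindelof _) measurableSet_ball Subset.rfl two_pos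
    (fun x _ => met_eu.pd (mem_univ x)) (fun _ hx => h.met.pd hx) fun x hx v => by
      rw [eu_self]; linarith [(h.bounds hx v).1]

end One

variable {ι : Type} {l : Filter ι} {M : ι → Type} [∀ n, TopologicalSpace (M n)]
  [∀ n, ChartedSpace E (M n)] [∀ n, IsManifold 𝓘(ℝ, E) ∞ (M n)] {g : ∀ n, Ten E (M n)}
  {U : ∀ n, Set (M n)} {p : ∀ n, M n} {φ : ∀ n, E → M n} {R r : ℝ}

/-- normal coordinates have bounded jets on a uniform ball -/
theorem exists_gd (hR : 0 < R) (hc : ∀ᶠ n in l, Cx (g n) (U n) (p n) R)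
    (hφ : ∀ᶠ n in l, IsNC (g n) (U n) (p n) (φ n))
    (hK : ∀ k, ∃ K, ∀ᶠ n in l, ∀ y ∈ bl (g n) (U n) (p n) R, RmB (g n) k y K) :
    ∃ r > 0, r ≤ R ∧ (∀ᶠ n in l, Gd (g n) (U n) (p n) r (φ n)) ∧
      ∀ k, BU l (ball 0 r) k fun n => comap (φ n) (g n) := by
  obtain ⟨K, hK0⟩ := hK 0
  have h1 : ∀ᶠ t in 𝓝[>] (0 : ℝ), |K| * t ^ 2 < 1 / 6 :=
    nhdsWithin_le_nhds ((by fun_prop : Continuous fun t : ℝ =>
      |K| * t ^ 2).continuousAt.eventually_lt continuousAt_const (by norm_num))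
  obtain ⟨t, h2, h3, h4⟩ := (h1.and (Ioc_mem_nhdsGT hR)).exists
  have h5 : ∀ᶠ n in l, Gd (g n) (U n) (p n) t (φ n) := by
    filter_upwards [hc, hφ, hK0] with n a b c
    exact ⟨a.mono h4, b, |K|, abs_nonneg _,
      fun y hy v hv => (c y (bl_mono h4 hy) v hv).trans (le_abs_self _), h2.le⟩
  refine ⟨t / 2, by linarith, by linarith, h5.mono fun n hn => hn.mono (by linarith) (by linarith),
    rad_jets (r := t) (by linarith) (h5.mono fun n hn => hn.nc.rad hn.cx h3 hn.ld) fun k => ?_⟩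
  obtain ⟨K', hK'⟩ := hK k
  refine ⟨K', ?_⟩
  filter_upwards [h5, hK'] with n a b x hx
  exact a.nc.rmB a.cx a.ld (fun y hy => b y (bl_mono h4 hy)) (ball_subset_ball (by linarith) hx)

theorem exists_dk (h : ∀ᶠ n in l, Gd (g n) (U n) (p n) r (φ n))
    (hJ : ∀ k, BU l (ball 0 r) k fun n => comap (φ n) (g n)) :
    ∃ L C, 0 ≤ L ∧ 0 ≤ C ∧ ∀ᶠ n in l, Dk (φ n) (U n) r L C := by
  let S : ∀ _ : ι, Set ((E → E) × E) := fun n => {q | q.2 ∈ ball (0 : E) r ∧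
    q.1 q.2 ∈ ball (0 : E) r ∧ ContinuousAt q.1 q.2 ∧ ∀ᶠ y in 𝓝 q.2, φ n (q.1 y) = φ n y}
  have hd : ∀ᶠ q in sg l S, ContDiffAt ℝ ∞ q.2.1 q.2.2 ∧ ∀ᶠ y in 𝓝 q.2.2,
      q.2.1 y ∈ ball (0 : E) r ∧ ∀ u w, comap (φ q.1) (g q.1) y u w =
        comap (φ q.1) (g q.1) (q.2.1 y) (fderiv ℝ q.2.1 y u) (fderiv ℝ q.2.1 y w) :=
    ev_sg.2 (h.mono fun n hn q hq => deck_iso hn.ld (g n) hq.1 hq.2.1 hq.2.2.1 hq.2.2.2)
  have h2 : ∀ k, BJ (sg l S) (fun q => q.2.2) k fun q => comap (φ q.1) (g q.1) := fun k =>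
    BJ.comp_tendsto (hJ k) (φ := fun q : Σ _ : ι, (E → E) × E => (q.1, q.2.2))
      (tendsto_sg_fst.prodMk (tendsto_principal.2 (ev_sg.2 (.of_forall fun _ _ hq => hq.1))))
  have h3 : ∀ k, BJ (sg l S) (fun q => q.2.1 q.2.2) k fun q => comap (φ q.1) (g q.1) := fun k =>
    BJ.comp_tendsto (hJ k) (φ := fun q : Σ _ : ι, (E → E) × E => (q.1, q.2.1 q.2.2))
      (tendsto_sg_fst.prodMk (tendsto_principal.2 (ev_sg.2 (.of_forall fun _ _ hq => hq.2.1))))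
  have h4 : UPos (sg l S) fun q => comap (φ q.1) (g q.1) q.2.2 :=
    ⟨1 / 4, by norm_num, ev_sg.2 (h.mono fun n hn q hq v => (hn.bounds hq.1 v).1)⟩
  have h5 : UPos (sg l S) fun q => comap (φ q.1) (g q.1) (q.2.1 q.2.2) :=
    ⟨1 / 4, by norm_num, ev_sg.2 (h.mono fun n hn q hq v => (hn.bounds hq.2.1 v).1)⟩
  have h1 : BJ (sg l S) (fun q => q.2.2) 1 fun q => fderiv ℝ q.2.1 := by
    refine bj_iso (hd.mono fun q hq => hq.1) h2 h3 h4 h5 ?_ 1
    filter_upwards [hd, tendsto_sg_fst.eventually h] with q h1 h2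
    exact h1.2.mono fun y hy => ⟨h2.met.symm _ hy.1, hy.2⟩
  obtain ⟨L, hL0, hL⟩ := h1.val.nonneg
  obtain ⟨C, hC0, hC⟩ := h1.fderiv.val.nonneg
  refine ⟨L, C, hL0, hC0, ?_⟩
  filter_upwards [h, ev_sg.1 ((hd.mono fun _ h => h.1.of_le (le_inf 2)).and (hL.and hC))] with n a b
  exact ⟨LD.localHomeo a.ld, sep_of_hs a.cx.hs, a.mapsU,
    fun σ x h1 h2 h3 h4 => b (σ, x) ⟨h1, h2, h3, h4⟩⟩

variable [MeasurableSpace E] [BorelSpace E] [∀ n, MeasurableSpace (M n)] [∀ n, BorelSpace (M n)]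

/-- a lower bound for the volume of a small ball bounds the injectivity radius from below -/
theorem exists_inj (hr : 0 < r) (h : ∀ᶠ n in l, Gd (g n) (U n) (p n) r (φ n))
    (hJ : ∀ k, BU l (ball 0 r) k fun n => comap (φ n) (g n)) :
    ∃ s₀ > 0, s₀ ≤ r ∧ ∀ s, 0 < s → s ≤ s₀ → ∀ v : ℝ≥0∞, v ≠ 0 → ∃ δ > 0, ∀ᶠ n in l,
      v ≤ vol (g n) (bl (g n) (U n) (p n) s) → InjOn (φ n) (ball 0 δ) := by
  obtain ⟨L, C, hL, hC, hd⟩ := exists_dk h hJ
  have h0 : r / (2 * L + 3) ≤ r := div_le_self hr.le (by linarith)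
  refine ⟨r / (2 * L + 3), by positivity, h0, fun s hs hs' v hv => ?_⟩
  obtain ⟨δ, hδ, H⟩ := cgt E (r := r) hL hC hs (by rwa [le_div_iff₀' (by positivity)] at hs') hv
    (ENNReal.mul_ne_top (ENNReal.ofReal_ne_top (r := (3 / 2) ^ finrank ℝ E)) (vol_eu_ne_top (E := E) r))
  refine ⟨δ, hδ, ?_⟩
  filter_upwards [h, hd] with n a b c
  refine H (M n) (φ n) (U n) (vol (g n)) (vol (comap (φ n) (g n))) b
    (fun W hW _ _ A hA hm => vol_image_le _ a.ld (HereditarilyLindelofSpace.isLindelof A)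
      (hA.trans hW) hm Subset.rfl) a.vol_comap_le ?_
  rwa [a.nc.image a.cx (hs'.trans h0)]

end Vale.Agent.P216G
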