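import Vale.Agent.P216G.Rad
import Vale.Agent.P216R.Nat

/-!
# Metrics in normal coordinates: closeness to the Euclidean metric and bounded jets
-/

open Set Filter Topology Function Metric
open scoped ContDiff

set_option maxSynthPendingDepth 3

noncomputable section

namespace Vale.Agent.P216G

open Vale.Agent.P219.RG Vale.Agent.P216R

variable {E : Type} [NormedAddCommGroup E] [InnerProductSpace ℝ E] [FiniteDimensional ℝ E]
  {G : E → Bil E} {r r' : ℝ} {e θ : ℝ × E → E →L[ℝ] E} {s : ℝ} {v : E}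

/-- the Gauss lemma characterises normal coordinates -/
theorem rad_of_gauss (hG : IsMetricOn G (ball 0 r)) (hr : 0 < r)
    (h : ∀ x ∈ ball (0 : E) r, ∀ w, G x x w = inner ℝ x w) : Rad G r := by
  have h1 : ∀ x ∈ ball (0 : E) r, ∀ u w, fderiv ℝ G x u x w + G x u w = inner ℝ u w := by
    intro x hx u w
    have h2 := (((hG.differentiableAt hx).hasFDerivAt.clm_apply (hasFDerivAt_id x)).clm_apply
      (hasFDerivAt_const w x)).unique (((innerSL ℝ (E := E)).flip w).hasFDerivAt.congr_of_eventuallyEq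
        (by filter_upwards [isOpen_ball.mem_nhds hx] with y hy using h y hy w))
    have h3 := congrArg (fun L : E →L[ℝ] ℝ => L u) h2
    simp only [ContinuousLinearMap.comp_zero, zero_add, ContinuousLinearMap.flip_apply,
      ContinuousLinearMap.add_apply, ContinuousLinearMap.comp_apply, id,
      ContinuousLinearMap.id_apply, innerSL_apply_apply] at h3
    linarith
  have h4 : ∀ x ∈ ball (0 : E) r, chris G x x x = 0 := by
    intro x hx
    refine hG.eq_zero hx ?_
    have h5 := h1 x hx x (chris G x x x)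
    have h6 := h1 x hx (chris G x x x) x
    rw [hG.symm x hx _ x, real_inner_comm] at h6
    rw [hG.chris_spec hx]
    linarith [h x hx (chris G x x x)]
  refine ⟨hG, fun v w => by simpa using h1 0 (mem_ball_self hr) v w, fun v hv => ?_⟩
  have h5 : ∀ s ∈ Ioc (0 : ℝ) 1, chris G (s • v) v v = 0 := fun s hs => by
    have := h4 _ (smul_mem_ball hv ⟨hs.1.le, hs.2⟩)
    rw [chris_smul_left, chris_smul_right, smul_smul] at this
    exact (smul_eq_zero.1 this).resolve_left (mul_pos hs.1 hs.1).ne'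
  intro s hs
  rcases hs.1.eq_or_lt with rfl | h0
  · have h6 : ContinuousAt (fun s : ℝ => chrisB G (s • v) v v) 0 := by
      have := (hG.contDiffAt_chrisB (mem_ball_self hr)).continuousAt
      rw [← zero_smul ℝ v] at this
      exact ((ContinuousAt.comp (f := fun s : ℝ => s • v) this (by fun_prop)).clm_apply
        continuousAt_const).clm_apply continuousAt_const
    refine tendsto_nhds_unique (h6.tendsto.mono_left (nhdsWithin_le_nhds (s := Ioi 0)))
      (tendsto_const_nhds.congr' ?_)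
    filter_upwards [Ioc_mem_nhdsGT zero_lt_one] with t ht using (h5 t ht).symm
  · exact h5 s ⟨h0, hs.2⟩

/-- components of the curvature and its derivatives in the frame -/
def fr (G : E → Bil E) (e : ℝ × E → E →L[ℝ] E) (k : ℕ) (w : Fin (k + 4) → E) (p : ℝ × E) : ℝ :=
  rmG G k (p.1 • p.2, fun i => e p (w i))

theorem fr_update {U : Set E} (hG : IsMetricOn G U) {p : ℝ × E} (hp : p.1 • p.2 ∈ U) (k : ℕ)
    (w : Fin (k + 4) → E) (i : Fin (k + 4)) (y : E) :
    fr G e k (update w i y) p = ∑ a, inner ℝ (stdOrthonormalBasis ℝ E a) y *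
      fr G e k (update w i (stdOrthonormalBasis ℝ E a)) p := by
  have h1 : ∀ z, (fun j => e p (update w i z j)) = update (fun j => e p (w j)) i (e p z) :=
    fun z => comp_update (e p) w i z
  simp only [fr, h1]
  rw [← (isT_rmG hG k).sum hp]
  conv_lhs => rw [← (stdOrthonormalBasis ℝ E).sum_repr' y]
  simp

theorem BJ.of_onb {ι : Type*} {l : Filter ι} {H F : Type} [NormedAddCommGroup H] [NormedSpace ℝ H]
    [NormedAddCommGroup F] [NormedSpace ℝ F] {x : ι → H} {k : ℕ} {A : ι → H → E →L[ℝ] F}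
    (h : ∀ a, BJ l x k fun n y => A n y (stdOrthonormalBasis ℝ E a)) : BJ l x k A := by
  refine (BJ.sum Finset.univ fun a _ => (h a).clm (ContinuousLinearMap.smulRightL ℝ E F
    (innerSL ℝ (stdOrthonormalBasis ℝ E a)))).congr (.of_forall fun n => .of_forall fun y => ?_)
  ext v
  conv_lhs => rw [← (stdOrthonormalBasis ℝ E).sum_repr' v, map_sum]
  simp

theorem BJ.of_inner {ι : Type*} {l : Filter ι} {H : Type} [NormedAddCommGroup H] [NormedSpace ℝ H]
    {x : ι → H} {k : ℕ} {u : ι → H → E}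
    (h : ∀ a, BJ l x k fun n y => inner ℝ (u n y) (stdOrthonormalBasis ℝ E a)) : BJ l x k u := by
  refine (BJ.sum Finset.univ fun a _ => (h a).smul (BJ.cst (stdOrthonormalBasis ℝ E a))).congr
    (.of_forall fun n => .of_forall fun y => ?_)
  conv_lhs => rw [← (stdOrthonormalBasis ℝ E).sum_repr' (u n y)]
  simp [real_inner_comm]

namespace Gauge

theorem contDiffAt_fr (h : Gauge G r' e θ) (hG : IsMetricOn G (ball 0 r)) {p : ℝ × E}
    (hp : p.1 • p.2 ∈ ball (0 : E) r) (k : ℕ) (w : Fin (k + 4) → E) :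
    ContDiffAt ℝ ∞ (fr G e k w) p :=
  ContDiffAt.comp p (g := rmG G k) ((isT_rmG hG k).sm _ hp _) ((by fun_prop : ContDiffAt ℝ ∞
    (fun p : ℝ × E => p.1 • p.2) p).prodMk (contDiffAt_pi.2 fun i =>
      h.se.contDiffAt.clm_apply contDiffAt_const))

theorem fr_bound (h : Gauge G r' e θ) (hG : Rad G r) (hr : r' ≤ r) (hv : v ∈ ball (0 : E) r')
    (hs : s ∈ Icc (0 : ℝ) 1) {k : ℕ} {K : ℝ} (hK : RmB G k (s • v) K) {w : Fin (k + 4) → E}
    (hw : ∀ i, ‖w i‖ ≤ 1) : |fr G e k w (s, v)| ≤ K := by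
  have := hK (fun i => e (s, v) (w i)) fun i => by
    rw [h.orth hG hr hv hs, real_inner_self_eq_norm_sq]
    exact pow_le_one₀ (norm_nonneg _) (hw i)
  rwa [Rm_model] at this

theorem hasFDerivAt_fr (h : Gauge G r' e θ) (hG : IsMetricOn G (ball 0 r))
    (hm : s • v ∈ ball (0 : E) r) (k : ℕ) (w : Fin (k + 4) → E) :
    HasFDerivAt (fun v => fr G e k w (s, v))
      (∑ a, fr G e (k + 1) (Fin.cons (stdOrthonormalBasis ℝ E a) w) (s, v) •
          (innerSL ℝ (stdOrthonormalBasis ℝ E a)).comp (gA θ (s, v)) +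
        ∑ i, ∑ a, fr G e k (update w i (stdOrthonormalBasis ℝ E a)) (s, v) •
          (innerSL ℝ (stdOrthonormalBasis ℝ E a)).comp ((gB G e θ (s, v)).flip (w i))) v := by
  have h1 : HasFDerivAt (fun v : E => (s • v, fun i => e (s, v) (w i))) _ v :=
    ((hasFDerivAt_id v).const_smul s).prodMk (hasFDerivAt_pi.2 fun i =>
      (h.hasFDerivAt_e s v).clm_apply (hasFDerivAt_const (w i) v))
  refine (((isT_rmG hG k).diff hm _).hasFDerivAt.comp v h1).congr_fderiv ?_
  ext ξ
  have h2 := fr_update (e := e) hG (p := (s, v)) hm (k + 1) (Fin.cons 0 w) 0 (gA θ (s, v) ξ)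
  have h3 := fun i => fr_update (e := e) hG (p := (s, v)) hm k w i (gB G e θ (s, v) ξ (w i))
  simp only [Fin.update_cons_zero] at h2
  simp only [ContinuousLinearMap.add_apply, ContinuousLinearMap.sum_apply,
    ContinuousLinearMap.smul_apply, ContinuousLinearMap.comp_apply, innerSL_apply_apply,
    ContinuousLinearMap.flip_apply, smul_eq_mul, mul_comm (fr _ _ _ _ _), ← h2, ← h3]
  refine ((isT_rmG hG k).fderiv_eq (G := G) hm _ _ _).trans (congrArg₂ _ ?_ ?_)
  · refine congrArg (rmG G (k + 1)) (Prod.ext rfl ?_)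
    refine Eq.trans ?_ (Fin.comp_cons (e (s, v)) _ w).symm
    simp [gA, h.e_θ, Function.comp_def]
  · refine Finset.sum_congr rfl fun i _ => congrArg (rmG G k) (Prod.ext rfl ?_)
    refine Eq.trans ?_ (comp_update (e (s, v)) w i _).symm
    simp [gB_apply, h.e_θ, Function.comp_def, chrisB_apply, chris_smul_left]

theorem norm_gR (h : Gauge G r' e θ) (hG : Rad G r) (hr : r' ≤ r) (hv : v ∈ ball (0 : E) r')
    (hs : s ∈ Icc (0 : ℝ) 1) {K : ℝ} (hK0 : 0 ≤ K) (hK : RmB G 0 (s • v) K) :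
    ‖gR G e θ (s, v)‖ ≤ K := by
  refine ContinuousLinearMap.opNorm_le_of_unit_norm hK0 fun a ha =>
    ContinuousLinearMap.opNorm_le_of_unit_norm hK0 fun b hb =>
    ContinuousLinearMap.opNorm_le_of_unit_norm hK0 fun c hc => ?_
  rw [← innerSL_apply_norm ℝ]
  refine ContinuousLinearMap.opNorm_le_of_unit_norm hK0 fun d hd => ?_
  have h1 := h.inner_gR hG hr hv hs ![a, b, c, d]
  have h2 := h.fr_bound hG hr hv hs hK (w := ![a, b, c, d]) fun i => by
    fin_cases i <;> simp [ha, hb, hc, hd]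
  rw [fr, ← h1] at h2
  exact h2

theorem near (h : Gauge G r' e θ) (hG : Rad G r) (hr : r' ≤ r) (hv : v ∈ ball (0 : E) r')
    {K : ℝ} (hK0 : 0 ≤ K) (hK : ∀ s ∈ Icc (0 : ℝ) 1, RmB G 0 (s • v) K) (h1 : K * ‖v‖ ^ 2 ≤ 1)
    (ξ : E) : ‖gA θ (1, v) ξ - ξ‖ ≤ 3 * (K * ‖v‖ ^ 2) * ‖ξ‖ := by
  have hd : ∀ s ∈ Icc (0 : ℝ) 1, HasDerivAt
      (fun s => (gA θ (s, v) ξ - s • ξ, gB G e θ (s, v) ξ v))
      (gB G e θ (s, v) ξ v, gR G e θ (s, v) v (gA θ (s, v) ξ) v) s := fun s hs => by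
    refine HasDerivAt.prodMk ?_ ?_
    · refine (((h.dA hG hr hv hs).clm_apply (hasDerivAt_const s ξ)).sub
        ((hasDerivAt_id s).smul_const ξ)).congr_deriv ?_
      simp
    · refine (((h.dB hG hr hv hs).clm_apply (hasDerivAt_const s ξ)).clm_apply
        (hasDerivAt_const s v)).congr_deriv ?_
      simp
  have h2 := gron_right (K := 1) (C := K * ‖v‖ ^ 2 * ‖ξ‖) zero_le_one zero_le_one (by positivity)
    (fun s hs => (hd s hs).continuousAt.continuousWithinAt)
    (fun s hs => hd s (Ioo_subset_Icc_self hs)) (fun s hs => by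
      have hs' := Ioo_subset_Icc_self hs
      have h3 := h.norm_gR hG hr hv hs' hK0 (hK s hs')
      have h4 : ‖gA θ (s, v) ξ‖ ≤ ‖gA θ (s, v) ξ - s • ξ‖ + ‖ξ‖ := by
        refine (norm_le_norm_sub_add _ (s • ξ)).trans (add_le_add le_rfl ?_)
        rw [norm_smul, Real.norm_of_nonneg hs.1.le]
        exact mul_le_of_le_one_left (norm_nonneg _) hs.2.le
      have h5 : ‖gR G e θ (s, v) v (gA θ (s, v) ξ) v‖ ≤ K * ‖v‖ * ‖gA θ (s, v) ξ‖ * ‖v‖ :=
        (ContinuousLinearMap.le_opNorm _ _).trans (by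
          gcongr
          exact (ContinuousLinearMap.le_opNorm₂ _ _ _).trans (by gcongr))
      rw [one_mul, Prod.norm_def, Prod.norm_def]
      refine max_le (le_add_of_le_of_nonneg (le_max_right _ _) (by positivity)) ?_
      have h6 := le_max_left ‖gA θ (s, v) ξ - s • ξ‖ ‖gB G e θ (s, v) ξ v‖
      have h7 : 0 ≤ K * ‖v‖ ^ 2 := by positivity
      dsimp only at h6 ⊢
      nlinarith [norm_nonneg (gA θ (s, v) ξ - s • ξ), mul_le_mul_of_nonneg_left h4 h7])
  have h3 := (norm_fst_le _).trans h2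
  have h4 := Real.exp_one_lt_three
  simp [gA, h.gB_zero] at h3
  simp only [gA, one_smul]
  have h5 : 0 ≤ K * ‖v‖ ^ 2 * ‖ξ‖ := by positivity
  nlinarith

end Gauge

/-- a metric in normal coordinates is close to the Euclidean one -/
theorem Rad.near (hG : Rad G r) (hv : v ∈ ball (0 : E) r) {K : ℝ} (hK0 : 0 ≤ K)
    (hK : ∀ s ∈ Icc (0 : ℝ) 1, RmB G 0 (s • v) K) (h1 : K * ‖v‖ ^ 2 ≤ 1) :
    ∃ A : E →L[ℝ] E, (∀ a b, G v a b = inner ℝ (A a) (A b)) ∧
      ∀ ξ, ‖A ξ - ξ‖ ≤ 3 * (K * ‖v‖ ^ 2) * ‖ξ‖ := by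
  obtain ⟨r', h2, h3⟩ := exists_between (mem_ball_zero_iff.1 hv)
  obtain ⟨e, θ, h⟩ := exists_gauge hG.met h3
  have h4 := mem_ball_zero_iff.2 h2
  exact ⟨_, h.eq_inner hG h3.le h4, h.near hG h3.le h4 hK0 hK h1⟩

theorem Rad.bounds (hG : Rad G r) (hv : v ∈ ball (0 : E) r) {K : ℝ} (hK0 : 0 ≤ K)
    (hK : ∀ s ∈ Icc (0 : ℝ) 1, RmB G 0 (s • v) K) (h1 : K * ‖v‖ ^ 2 ≤ 1 / 6) (ξ : E) :
    1 / 4 * ‖ξ‖ ^ 2 ≤ G v ξ ξ ∧ G v ξ ξ ≤ 9 / 4 * ‖ξ‖ ^ 2 := by
  obtain ⟨A, h2, h3⟩ := hG.near hv hK0 hK (by linarith)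
  have h4 : ‖A ξ - ξ‖ ≤ 1 / 2 * ‖ξ‖ := (h3 ξ).trans (by gcongr; linarith)
  have h5 := abs_le.1 ((abs_norm_sub_norm_le _ _).trans h4)
  rw [h2, real_inner_self_eq_norm_sq]
  constructor <;> nlinarith [norm_nonneg ξ, norm_nonneg (A ξ)]

/-- bounded jets in normal coordinates -/
theorem rad_jets {ι : Type*} {l : Filter ι} {G : ι → E → Bil E} (hr : r' < r)
    (hG : ∀ᶠ n in l, Rad (G n) r)
    (hK : ∀ k, ∃ K, ∀ᶠ n in l, ∀ x ∈ ball (0 : E) r', RmB (G n) k x K) (k : ℕ) :
    BU l (ball 0 r') k G := by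
  have h0 : ∀ n, ∃ e θ, Rad (G n) r → Gauge (G n) r' e θ := fun n => by
    by_cases h : Rad (G n) r
    · obtain ⟨e, θ, h1⟩ := exists_gauge h.met hr
      exact ⟨e, θ, fun _ => h1⟩
    · exact ⟨0, 0, fun h1 => (h h1).elim⟩
  choose e θ hg using h0
  have hm : ∀ p ∈ Icc (0 : ℝ) 1 ×ˢ ball (0 : E) r', p.1 • p.2 ∈ ball (0 : E) r := fun p hp =>
    smul_mem_ball (ball_subset_ball hr.le hp.2) hp.1
  have hQ : ∀ j, (∀ k (w : Fin (k + 4) → E), (∀ i, ‖w i‖ ≤ 1) →
      BT l (Icc 0 1) (ball 0 r') j fun n s v => fr (G n) (e n) k w (s, v)) →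
      BT l (Icc 0 1) (ball 0 r') j fun n s v => (gA (θ n) (s, v), gB (G n) (e n) (θ n) (s, v)) := by
    intro j hP
    have hR : BT l (Icc 0 1) (ball 0 r') j fun n s v => gR (G n) (e n) (θ n) (s, v) := by
      refine BJ.of_onb fun a => BJ.of_onb fun b => BJ.of_onb fun c => BJ.of_inner fun d => ?_
      refine (hP 0 ![stdOrthonormalBasis ℝ E a, stdOrthonormalBasis ℝ E b,
        stdOrthonormalBasis ℝ E c, stdOrthonormalBasis ℝ E d] fun i => by
          fin_cases i <;> simp).congr (ev_prod.2 ?_)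
      filter_upwards [hG] with n hn p hp
      filter_upwards [isOpen_ball.mem_nhds hp.2] with y hy
      exact (hg n hn).inner_gR hn hr.le hy hp.1 ![_, _, _, _]
    have hv : BT l (Icc 0 1) (ball (0 : E) r') j fun _ _ v => v :=
      BJ.id' ⟨r', ev_prod.2 (.of_forall fun _ p hp => (mem_ball_zero_iff.1 hp.2).le)⟩
    refine ode ordConnected_Icc (uniqueDiffOn_Icc zero_lt_one) isOpen_ball (s₀ := fun _ => 0)
      (.of_forall fun _ => ⟨le_rfl, zero_le_one⟩) (T := 1)
      (fun s hs t ht => abs_le.2 ⟨by linarith [hs.1, ht.2], by linarith [hs.2, ht.1]⟩) j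
      (c := fun _ _ _ => (1, 0)) (L := fun n s v =>
        (ContinuousLinearMap.inl ℝ _ _).comp ((ContinuousLinearMap.apply ℝ (E →L[ℝ] E) v).comp
          ((flipL E E E).comp (ContinuousLinearMap.snd ℝ _ _))) +
        (ContinuousLinearMap.inr ℝ _ _).comp
          (((ContinuousLinearMap.compL ℝ E E (E →L[ℝ] E)) (gR (G n) (e n) (θ n) (s, v) v)).comp
          (ContinuousLinearMap.fst ℝ _ _))) ?_ ?_ ?_ (BJ.cst _) ?_
    · filter_upwards [hG] with n hn p hp
      exact ((hg n hn).contDiff_gA.contDiffAt.prodMk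
        ((hg n hn).contDiffAt_gB hn.met (hm p hp))).contDiffWithinAt
    · filter_upwards [hG] with n hn s hs v hv
      refine (((hg n hn).dA hn hr.le hv (interior_subset hs)).prodMk
        ((hg n hn).dB hn hr.le hv (interior_subset hs))).congr_deriv ?_
      simp [flipL]
    · exact ((BJ.cst _).clm_comp ((BJ.clm _ hv).clm_comp (BJ.cst _))).add
        ((BJ.cst _).clm_comp ((BJ.clm _ (BJ.clm_apply hR hv)).clm_comp (BJ.cst _)))
    · refine (BJ.cst (0, 0)).congr (ev_prod.2 ?_)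
      filter_upwards [hG] with n hn p hp
      exact .of_forall fun y => by simp [gA, (hg n hn).gB_zero]
  have hP : ∀ j k (w : Fin (k + 4) → E), (∀ i, ‖w i‖ ≤ 1) →
      BT l (Icc 0 1) (ball 0 r') j fun n s v => fr (G n) (e n) k w (s, v) := by
    have hz : ∀ k (w : Fin (k + 4) → E), (∀ i, ‖w i‖ ≤ 1) →
        BT l (Icc 0 1) (ball 0 r') 0 fun n s v => fr (G n) (e n) k w (s, v) := by
      intro k w hw
      obtain ⟨K, hK⟩ := hK k
      refine BJ.zero_of (ev_prod.2 ?_) ⟨K, ev_prod.2 ?_⟩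
      · filter_upwards [hG] with n hn p hp
        exact ContDiffAt.comp p.2 (g := fr (G n) (e n) k w)
          ((hg n hn).contDiffAt_fr hn.met (hm p hp) k w) (contDiffAt_const.prodMk contDiffAt_id)
      · filter_upwards [hG, hK] with n hn h1 p hp
        exact (hg n hn).fr_bound hn hr.le hp.2 hp.1 (h1 _ (smul_mem_ball hp.2 hp.1)) hw
    intro j
    induction j with
    | zero => exact hz
    | succ j ih =>
      intro k w hw
      have h1 := hQ j ih
      refine BJ.succ_of (hz k w hw) (BJ.add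
        (BJ.sum Finset.univ fun a _ => (ih (k + 1) (Fin.cons (stdOrthonormalBasis ℝ E a) w)
          (Fin.forall_fin_succ.2 ⟨by simp, by simpa using hw⟩)).smul
          ((BJ.cst (innerSL ℝ (stdOrthonormalBasis ℝ E a))).clm_comp h1.fst))
        (BJ.sum Finset.univ fun i _ => BJ.sum Finset.univ fun a _ =>
          (ih k (update w i (stdOrthonormalBasis ℝ E a)) fun i' => by
            rcases eq_or_ne i' i with rfl | h2
            · simp
            · simpa [update_of_ne h2] using hw i').smul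
          ((BJ.cst (innerSL ℝ (stdOrthonormalBasis ℝ E a))).clm_comp
            (h1.snd.flip.clm_apply (BJ.cst (w i)))))) (ev_prod.2 ?_)
      filter_upwards [hG] with n hn p hp
      filter_upwards [isOpen_ball.mem_nhds hp.2] with y hy
      exact (hg n hn).hasFDerivAt_fr hn.met (hm (p.1, y) (mk_mem_prod hp.1 hy)) k w
  have hA := BJ.fst (BT.slice (hQ k (hP k)) (s := fun _ => 1)
    (.of_forall fun _ => ⟨zero_le_one, le_rfl⟩))
  refine BJ.of_onb fun a => BJ.of_onb fun b => ((BJ.clm_apply hA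
    (BJ.cst (stdOrthonormalBasis ℝ E a))).bilin (innerSL ℝ (E := E))
    (BJ.clm_apply hA (BJ.cst (stdOrthonormalBasis ℝ E b)))).congr (ev_prod.2 ?_)
  filter_upwards [hG] with n hn p hp
  filter_upwards [isOpen_ball.mem_nhds hp] with y hy
  exact (hg n hn).eq_inner hn hr.le hy _ _

end Vale.Agent.P216G
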