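import Mathlib.Topology.Homotopy.Lifting
import Mathlib.Topology.Order.IntermediateValue
import Mathlib.Topology.MetricSpace.Pseudo.Lemmas

/-!
# Lifting of curves along a map which is a local homeomorphism on an open set
-/

open Set Filter Topology

namespace Vale.Agent.P216G

variable {Z X A : Type*} [TopologicalSpace Z] [TopologicalSpace X] [TopologicalSpace A]
  {p : Z → X} {O : Set Z} {γ : ℝ → X} {e : Z}

/-- Hausdorff property of a subset -/
def Sep (U : Set X) : Prop := ∀ x ∈ U, ∀ y ∈ U, (𝓝 x ⊓ 𝓝 y).NeBot → x = y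

theorem isLocalHomeomorph_restrict (hp : IsLocalHomeomorphOn p O) (hO : IsOpen O) :
    IsLocalHomeomorph (O.restrict p) :=
  isLocalHomeomorph_iff_isLocalHomeomorphOn_univ.2
    (hp.comp hO.isOpenEmbedding_subtypeVal.isLocalHomeomorph.isLocalHomeomorphOn
      fun x _ => x.2)

theorem lift_unique [T2Space Z] (hp : IsLocalHomeomorphOn p O) (hO : IsOpen O) {s : Set A}
    (hs : IsPreconnected s) {g₁ g₂ : A → Z} (h₁ : ContinuousOn g₁ s) (h₂ : ContinuousOn g₂ s)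
    (m₁ : MapsTo g₁ s O) (m₂ : MapsTo g₂ s O) (he : ∀ a ∈ s, p (g₁ a) = p (g₂ a)) {a : A}
    (ha : a ∈ s) (hae : g₁ a = g₂ a) : EqOn g₁ g₂ s := by
  have := Subtype.preconnectedSpace hs
  have h := (T2Space.isSeparatedMap (O.restrict p)).eq_of_comp_eq
    (isLocalHomeomorph_restrict hp hO).isLocallyInjective (h₁.mapsToRestrict m₁)
    (h₂.mapsToRestrict m₂) (funext fun x => he x x.2) ⟨a, ha⟩ (Subtype.ext hae)
  intro x hx
  exact congrArg Subtype.val (congrFun h ⟨x, hx⟩)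

/-- `Γ` lifts `γ` on `[0,T]`, starting at `e`, inside `O`. -/
structure IsLift (p : Z → X) (O : Set Z) (γ : ℝ → X) (e : Z) (T : ℝ) (Γ : ℝ → Z) : Prop where
  cont : ContinuousOn Γ (Icc 0 T)
  mem : ∀ t ∈ Icc 0 T, Γ t ∈ O
  eq : ∀ t ∈ Icc 0 T, p (Γ t) = γ t
  zero : Γ 0 = e

theorem IsLift.mono {T T' : ℝ} {Γ : ℝ → Z} (h : IsLift p O γ e T Γ) (hT : T' ≤ T) :
    IsLift p O γ e T' Γ :=
  ⟨h.cont.mono (Icc_subset_Icc_right hT), fun t ht => h.mem t (Icc_subset_Icc_right hT ht),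
    fun t ht => h.eq t (Icc_subset_Icc_right hT ht), h.zero⟩

theorem exists_chart (hp : IsLocalHomeomorphOn p O) (hO : IsOpen O) {z : Z} (hz : z ∈ O) :
    ∃ q : OpenPartialHomeomorph Z X, z ∈ q.source ∧ q.source ⊆ O ∧ p = q := by
  obtain ⟨q, h1, h2⟩ := hp z hz
  refine ⟨q.restrOpen O hO, ⟨h1, hz⟩, inter_subset_right, h2⟩

theorem IsLift.extend (q : OpenPartialHomeomorph Z X) (hq : p = q) (hqO : q.source ⊆ O) {s T : ℝ}
    (h0 : 0 ≤ s) (hsT : s ≤ T) {Γ : ℝ → Z} (hΓ : IsLift p O γ e s Γ) (hV : Γ s ∈ q.source)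
    (hW : ∀ t ∈ Icc s T, γ t ∈ q.target) (hγ : ContinuousOn γ (Icc s T)) :
    ∃ Γ', IsLift p O γ e T Γ' := by
  have hs : γ s = q (Γ s) := by rw [← hΓ.eq s ⟨h0, le_rfl⟩, hq]
  have hs' : q.symm (γ s) = Γ s := by rw [hs, q.left_inv hV]
  refine ⟨fun t => if t ≤ s then Γ t else q.symm (γ t), ?_, ?_, ?_, ?_⟩
  · have h1 : ContinuousOn (fun t => if t ≤ s then Γ t else q.symm (γ t)) (Icc 0 s) :=
      hΓ.cont.congr (fun t ht => by simp [ht.2])
    have h2 : ContinuousOn (fun t => if t ≤ s then Γ t else q.symm (γ t)) (Icc s T) := by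
      refine (q.continuousOn_symm.comp hγ (fun t ht => hW t ht)).congr (fun t ht => ?_)
      by_cases h : t ≤ s
      · have : t = s := le_antisymm h ht.1
        subst this
        simp [hs']
      · simp [h]
    have h3 := h1.union_of_isClosed h2 isClosed_Icc isClosed_Icc
    rwa [Icc_union_Icc_eq_Icc h0 hsT] at h3
  · intro t ht
    by_cases h : t ≤ s
    · simp only [h, if_true]
      exact hΓ.mem t ⟨ht.1, h⟩
    · simp only [h, if_false]
      exact hqO (q.map_target (hW t ⟨(not_le.1 h).le, ht.2⟩))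
  · intro t ht
    by_cases h : t ≤ s
    · simp only [h, if_true]
      exact hΓ.eq t ⟨ht.1, h⟩
    · simp only [h, if_false]
      rw [hq]
      exact q.right_inv (hW t ⟨(not_le.1 h).le, ht.2⟩)
  · simp [h0, hΓ.zero]

/-- A curve lifts if all partial lifts stay in a compact subset of `O`. -/
theorem exists_lift (hp : IsLocalHomeomorphOn p O) (hO : IsOpen O) {U : Set X} (hU : Sep U)
    (hOU : MapsTo p O U) {b : ℝ} (hb0 : 0 ≤ b) (hγ : ContinuousOn γ (Icc 0 b))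
    (hγU : ∀ t ∈ Icc 0 b, γ t ∈ U) (heO : e ∈ O) (he : p e = γ 0) {K : Set Z} (hK : IsCompact K)
    (hKO : K ⊆ O)
    (hb : ∀ T ∈ Icc (0 : ℝ) b, ∀ Γ, IsLift p O γ e T Γ → Γ T ∈ K) :
    ∃ Γ, IsLift p O γ e b Γ := by
  set S : Set ℝ := {T | ∃ Γ, IsLift p O γ e T Γ} with hS
  have h0 : (0 : ℝ) ∈ S := by
    refine ⟨fun _ => e, continuousOn_const, fun _ _ => heO, fun t ht => ?_, rfl⟩
    have : t = 0 := le_antisymm ht.2 ht.1
    rw [this, he]
  have hclosed : IsClosed (S ∩ Icc 0 b) := by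
    rw [isClosed_iff_frequently]
    intro T hT
    have hT01 : T ∈ Icc (0 : ℝ) b := by
      have : ∃ᶠ y in 𝓝 T, y ∈ Icc (0 : ℝ) b := hT.mono (fun y hy => hy.2)
      exact isClosed_iff_frequently.1 isClosed_Icc T this
    refine ⟨?_, hT01⟩
    have : Nonempty Z := ⟨e⟩
    choose! Γ hΓ using (fun T (h : T ∈ S) => h)
    have hne : (𝓝[S ∩ Icc 0 b] T).NeBot := by
      rw [← mem_closure_iff_nhdsWithin_neBot, mem_closure_iff_frequently]
      exact hT
    have hmem : ∀ᶠ s in 𝓝[S ∩ Icc 0 b] T, Γ s s ∈ K := by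
      filter_upwards [self_mem_nhdsWithin] with s hs
      exact hb s hs.2 (Γ s) (hΓ s hs.1)
    obtain ⟨v, hvK, hv⟩ := hK.exists_clusterPt (f := map (fun s => Γ s s) (𝓝[S ∩ Icc 0 b] T))
      (le_principal_iff.2 (mem_map.2 hmem))
    have hpv : p v = γ T := by
      have h1 : ClusterPt (p v) (map p (map (fun s => Γ s s) (𝓝[S ∩ Icc 0 b] T))) :=
        hv.map (hp.continuousAt (hKO hvK)) tendsto_map
      have h2 : Tendsto (fun s => p (Γ s s)) (𝓝[S ∩ Icc 0 b] T) (𝓝 (γ T)) := by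
        have h3 : Tendsto γ (𝓝[S ∩ Icc 0 b] T) (𝓝 (γ T)) :=
          (hγ T hT01).mono_left (nhdsWithin_mono _ inter_subset_right)
        refine h3.congr' ?_
        filter_upwards [self_mem_nhdsWithin] with s hs
        exact ((hΓ s hs.1).eq s ⟨hs.2.1, le_rfl⟩).symm
      rw [map_map] at h1
      exact hU _ (hOU (hKO hvK)) _ (hγU T hT01) (h1.mono h2)
    obtain ⟨q, hvq, hqO, hq⟩ := exists_chart hp hO (hKO hvK)
    have hW : q.target ∈ 𝓝 (γ T) := by
      rw [← hpv, hq]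
      exact q.open_target.mem_nhds (q.map_source hvq)
    have hγT : ∀ᶠ s in 𝓝[Icc 0 b] T, γ s ∈ q.target := (hγ T hT01) hW
    obtain ⟨ε, hε, hεW⟩ := Metric.mem_nhdsWithin_iff.1 hγT
    have hfr : ∃ᶠ s in 𝓝[S ∩ Icc 0 b] T, Γ s s ∈ q.source :=
      hv.frequently (q.open_source.mem_nhds hvq)
    have hev1 : ∀ᶠ s in 𝓝[S ∩ Icc 0 b] T, s ∈ S ∩ Icc 0 b := self_mem_nhdsWithin
    have hev2 : ∀ᶠ s in 𝓝[S ∩ Icc 0 b] T, s ∈ Metric.ball T ε :=
      nhdsWithin_le_nhds (Metric.ball_mem_nhds T hε)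
    obtain ⟨s, hs1, hs2, hs3⟩ := (hfr.and_eventually (hev1.and hev2)).exists
    rcases le_or_gt T s with h | h
    · exact ⟨Γ s, (hΓ s hs2.1).mono h⟩
    · refine (hΓ s hs2.1).extend q hq hqO hs2.2.1 h.le hs1 (fun t ht => hεW ⟨?_, ?_⟩)
        (hγ.mono (Icc_subset_Icc hs2.2.1 hT01.2))
      · rw [Metric.mem_ball, Real.dist_eq, abs_lt] at hs3 ⊢
        constructor <;> linarith [ht.1, ht.2, hs3.1]
      · exact ⟨hs2.2.1.trans ht.1, ht.2.trans hT01.2⟩
  have hmain : Icc (0 : ℝ) b ⊆ S := by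
    refine hclosed.Icc_subset_of_forall_mem_nhdsWithin h0 ?_
    rintro T ⟨⟨Γ, hΓ⟩, hT0, hT1⟩
    obtain ⟨q, hvq, hqO, hq⟩ := exists_chart hp hO (hΓ.mem T ⟨hT0, le_rfl⟩)
    have hW : q.target ∈ 𝓝 (γ T) := by
      rw [← hΓ.eq T ⟨hT0, le_rfl⟩, hq]
      exact q.open_target.mem_nhds (q.map_source hvq)
    have hγT : ∀ᶠ s in 𝓝[Icc 0 b] T, γ s ∈ q.target := (hγ T ⟨hT0, hT1.le⟩) hW
    obtain ⟨ε, hε, hεW⟩ := Metric.mem_nhdsWithin_iff.1 hγT
    have : Ioo T (min (T + ε) b) ∈ 𝓝[>] T := Ioo_mem_nhdsGT (by simp [hε, hT1])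
    filter_upwards [this] with s hs
    refine hΓ.extend q hq hqO hT0 hs.1.le hvq (fun t ht => hεW ⟨?_, ?_⟩)
        (hγ.mono (Icc_subset_Icc hT0 (hs.2.le.trans (min_le_right _ _))))
    · rw [Metric.mem_ball, Real.dist_eq, abs_lt]
      have := hs.2.trans_le (min_le_left _ _)
      constructor <;> linarith [ht.1, ht.2]
    · exact ⟨hT0.trans ht.1, ht.2.trans (hs.2.le.trans (min_le_right _ _))⟩
  exact hmain ⟨hb0, le_rfl⟩

/-- near a time, a lift is the local inverse composed with the curve -/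
theorem IsLift.eventuallyEq {T : ℝ} {Γ : ℝ → Z} (h : IsLift p O γ e T Γ) {t : ℝ}
    (ht : t ∈ Icc 0 T) (q : OpenPartialHomeomorph Z X) (hq : p = q) (hz : Γ t ∈ q.source) :
    Γ =ᶠ[𝓝[Icc 0 T] t] fun s => q.symm (γ s) := by
  filter_upwards [h.cont t ht (q.open_source.mem_nhds hz), self_mem_nhdsWithin] with s h1 h2
  rw [← h.eq s h2, hq, q.left_inv h1]

/-- the end points of a family of lifts depend continuously on the parameter -/
theorem continuousOn_lift [T2Space Z] (hp : IsLocalHomeomorphOn p O) (hO : IsOpen O) {D : Set A}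
    {c : A → ℝ → X} (hc : ContinuousOn (fun q : ℝ × A => c q.2 q.1) (Icc 0 1 ×ˢ D))
    {Γ : A → ℝ → Z} {e : A → Z} (he : ContinuousOn e D)
    (hΓ : ∀ a ∈ D, IsLift p O (c a) (e a) 1 (Γ a)) : ContinuousOn (fun a => Γ a 1) D := by
  let f : C(unitInterval × D, X) := ⟨fun q => c q.2 q.1,
    hc.comp_continuous (f := fun q : unitInterval × D => ((q.1 : ℝ), (q.2 : A))) (by fun_prop)
      fun q => mk_mem_prod q.1.2 q.2.2⟩
  let g : unitInterval × D → O := fun q => ⟨Γ q.2 q.1, (hΓ q.2 q.2.2).mem _ q.1.2⟩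
  have hg : Continuous g := (isLocalHomeomorph_restrict hp hO).continuous_lift
    (T2Space.isSeparatedMap _) f (funext fun q => (hΓ q.2 q.2.2).eq _ q.1.2)
    (by
      refine Continuous.subtype_mk ?_ _
      exact (continuousOn_iff_continuous_restrict.1 he).congr fun a => (hΓ a a.2).zero.symm)
    (fun a => Continuous.subtype_mk
      (continuousOn_iff_continuous_restrict.1 (hΓ a a.2).cont) _)
  rw [continuousOn_iff_continuous_restrict]
  exact continuous_subtype_val.comp (hg.comp (.prodMk_right 1))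

end Vale.Agent.P216G
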