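import Vale.Agent.P216G.Good
import Vale.Agent.P216DC.Lim

/-!
# The injectivity radius estimate with uniform constants
-/

open Set Topology Function Metric MeasureTheory Module
open Filter hiding comap comap_id
open scoped ContDiff Manifold ENNReal

noncomputable section

namespace Vale.Agent.P216G

open Vale.Agent.P216R Vale.Agent.P216CP Vale.Agent.P216U

theorem goodDC : P216DC.GOOD := by
  intro ι l M _ _ _ _ _ U g x ρ h1 h2 h3 h4 ⟨v, hv, s, hs, h5, h6⟩
  exact good (.of_forall fun n => ⟨h1 n, h2 n, h3 n⟩) (fun r hr h => (h4 r hr h).1)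
    (fun r hr h => (h4 r hr h).2) hs h5 (ENNReal.ofReal_pos.2 (by positivity)).ne' h6

theorem lim0 (h : P216DC.SHI) : P216DC.LIM0 := P216DC.lim0 h goodDC

variable (E : Type) [NormedAddCommGroup E] [InnerProductSpace ℝ E] [FiniteDimensional ℝ E]
  [MeasurableSpace E] [BorelSpace E]

/-- Cheeger-Gromov-Taylor -/
theorem inj_unif (K : ℕ → ℝ) {s T R : ℝ} (hs : 0 < s) (hT : s < T) (hR : T < R) {v : ℝ≥0∞}
    (hv : v ≠ 0) : ∃ δ > 0, ∀ (M : Type) [TopologicalSpace M] [ChartedSpace E M]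
      [IsManifold 𝓘(ℝ, E) ∞ M] [MeasurableSpace M] [BorelSpace M] (g : Ten E M) (U : Set M) (p : M),
      Cx g U p R → (∀ k, ∀ y ∈ bl g U p R, RmB g k y (K k)) → v ≤ vol g (bl g U p s) →
      ∀ y ∈ bl g U p T, Nb g U y δ := by
  by_contra hne
  push Not at hne
  choose M i1 i2 i3 i4 i5 g U p h1 h2 h3 y h4 h5 using
    fun n : ℕ => hne (1 / (n + 1)) Nat.one_div_pos_of_nat
  have h7 : ∀ n (y : M n), ∃ φ, y ∈ U n → IsNC (g n) (U n) y φ := fun n y => by
    by_cases h : y ∈ U n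
    · exact (exists_isNC (h1 n).met h).imp fun φ hφ _ => hφ
    · exact ⟨fun _ => y, fun a => (h a).elim⟩
  choose φ hφ using h7
  obtain ⟨δ, hδ, -, h8, -⟩ := exists_inj_ball (l := atTop) (φ := φ) (x := p) (R := R - T)
    (by linarith) hs hT (.of_forall fun n => by simpa using h1 n) (.of_forall hφ)
    (fun k => ⟨K k, .of_forall fun n => by simpa using h2 n k⟩) hv (.of_forall h3)
  obtain ⟨n, h9, h10⟩ := (h8.and (tendsto_one_div_add_atTop_nhds_zero_nat.eventually
    (ge_mem_nhds hδ))).exists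
  have h11 := h9 _ (h4 n)
  exact h5 n ((h11.1.nc.nb h11.1.cx hδ h11.1.ld h11.2).mono Nat.one_div_pos_of_nat h10)

end Vale.Agent.P216G
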