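import Vale.Agent.P216G.Jet
import Vale.Agent.P216CP.HR
import Vale.Agent.P216BF.ONB

/-!
# Normal coordinates: the conjugate radius
-/

open Set Topology Function Metric
open Filter hiding comap comap_id
open scoped ContDiff Manifold

set_option maxSynthPendingDepth 3

noncomputable section

namespace Vale.Agent.P216G

open Vale.Agent.P219.RG Vale.Agent.P216R Vale.Agent.P216CP Vale.Agent.P216BF

variable {E : Type} [NormedAddCommGroup E] [InnerProductSpace ℝ E] [FiniteDimensional ℝ E]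
  {M : Type} [TopologicalSpace M] [ChartedSpace E M]
  {g : Ten E M} {U : Set M} {p : M} {R r K : ℝ} {φ : E → M} {v : E}

theorem exists_onEquiv {B : Bil E} (h : PD B) :
    ∃ A : E ≃L[ℝ] E, ∀ v w, B (A v) (A w) = inner ℝ v w := by
  obtain ⟨e, he⟩ := h.exists_onb
  obtain ⟨b, hb, -⟩ := he.exists_basis
  set o := stdOrthonormalBasis ℝ E
  refine ⟨(o.toBasis.equiv b (Equiv.refl _)).toContinuousLinearEquiv, fun v w => ?_⟩
  have h1 : ∀ i, (o.toBasis.equiv b (Equiv.refl _)).toContinuousLinearEquiv (o i) = e i :=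
    fun i => by rw [← hb]; exact o.toBasis.equiv_apply i b (Equiv.refl _)
  rw [← o.sum_inner_mul_inner v w]
  conv_lhs => rw [← o.sum_repr' v, ← o.sum_repr' w]
  simp [map_sum, h1, he.on, real_inner_comm, mul_comm]

/-- the standing hypotheses: complete up to the radius `R` about `p` -/
structure Cx (g : Ten E M) (U : Set M) (p : M) (R : ℝ) : Prop where
  met : Met g U
  hs : Hs U
  mem : p ∈ U
  cpt : Cpt g U p R

omit [FiniteDimensional ℝ E] in
theorem Cx.mono (h : Cx g U p R) (hr : r ≤ R) : Cx g U p r := ⟨h.met, h.hs, h.mem, h.cpt.mono hr⟩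

/-- `φ` is the exponential map at `p` in an orthonormal frame -/
def IsNC (g : Ten E M) (U : Set M) (p : M) (φ : E → M) : Prop :=
  ∃ A : E ≃L[ℝ] E, (∀ v w, g p (A v) (A w) = inner ℝ v w) ∧ φ = expo g U p ∘ A

theorem exists_isNC (hg : Met g U) (hp : p ∈ U) : ∃ φ, IsNC g U p φ :=
  let ⟨A, hA⟩ := exists_onEquiv ⟨hg.symm p hp, hg.pos p hp⟩
  ⟨_, A, hA, rfl⟩

omit [FiniteDimensional ℝ E] in
theorem image_ball {B : Bil E} {A : E ≃L[ℝ] E} (hA : ∀ v w, B (A v) (A w) = inner ℝ v w) (r : ℝ) :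
    A '' ball 0 r = tb B r := by
  ext w
  obtain ⟨v, rfl⟩ := A.surjective w
  simp [tb, hA, A.injective.mem_set_image]

variable [IsManifold 𝓘(ℝ, E) ∞ M]

theorem LD.localHomeo {N : Type} [TopologicalSpace N] [ChartedSpace E N] [IsManifold 𝓘(ℝ, E) ∞ N]
    {f : N → M} {V : Set N} (h : LD E f V) : IsLocalHomeomorphOn f V := by
  refine (isLocalHomeomorphOn_iff_isOpenEmbedding_restrict _).2 fun x hx => ?_
  obtain ⟨k, -, k2, -⟩ := exists_inv (h.sm hx) (h.inj x hx)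
  obtain ⟨W, w1, w2, w3⟩ := eventually_nhds_iff.1 (k2.and (h.isOpen.eventually_mem hx))
  have hW : W ⊆ V := fun y hy => (w1 y hy).2
  refine ⟨W, w2.mem_nhds w3, .of_continuous_injective_isOpenMap
    (h.smooth.continuousOn.mono hW).domRestrict
    (LeftInvOn.injOn (f₁' := k) fun y hy => (w1 y hy).1).injective fun T hT => ?_⟩
  have := h.isOpen_image (w2.isOpenMap_subtype_val T hT) ((Subtype.coe_image_subset W T).trans hW)
  rwa [image_image] at this

namespace IsNC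

theorem zero (h : IsNC g U p φ) (hc : Cx g U p R) : φ 0 = p := by
  obtain ⟨A, -, rfl⟩ := h
  simp [expo_zero hc.met hc.hs hc.mem]

theorem image (h : IsNC g U p φ) (hc : Cx g U p R) (hr : r ≤ R) :
    φ '' ball 0 r = bl g U p r := by
  obtain ⟨A, hA, rfl⟩ := h
  rw [image_comp, image_ball hA, expo_image hc.met hc.hs hc.cpt hc.mem hr]

theorem maps (h : IsNC g U p φ) (hc : Cx g U p R) : MapsTo φ (ball 0 R) (bl g U p R) :=
  fun _ hv => h.image hc le_rfl ▸ mem_image_of_mem φ hv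

theorem mapsU (h : IsNC g U p φ) (hc : Cx g U p R) : MapsTo φ (ball 0 R) U :=
  (h.maps hc).mono_right bl_subset

theorem sm_gauss (h : IsNC g U p φ) (hc : Cx g U p R) (hv : v ∈ ball (0 : E) R) :
    SM E φ v ∧ ∀ w, comap φ g v v w = inner ℝ v w := by
  obtain ⟨A, hA, rfl⟩ := h
  have h1 : A v ∈ Dom g U p := tb_subset_Dom hc.met hc.hs hc.cpt hc.mem
    (image_ball hA R ▸ mem_image_of_mem A hv)
  have h2 := contMDiffAt_expo hc.met hc.hs h1
  have h3 : SM E A v := A.contDiff.contDiffAt.contMDiffAt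
  refine ⟨h2.comp v h3, fun w => ?_⟩
  rw [← comap_comp g (SM.md h2) h3.md, comap_model, A.fderiv, ← hA]
  exact gauss hc.met hc.hs h1 _

theorem sm (h : IsNC g U p φ) (hc : Cx g U p R) (hv : v ∈ ball (0 : E) R) : SM E φ v :=
  (h.sm_gauss hc hv).1

theorem rad (h : IsNC g U p φ) (hc : Cx g U p R) (hR : 0 < R) (hl : LD E φ (ball 0 R)) :
    Rad (comap φ g) R :=
  rad_of_gauss (hc.met.isMetricOn_comap hl (h.mapsU hc)) hR fun _ hx => (h.sm_gauss hc hx).2

theorem rmB (h : IsNC g U p φ) (hc : Cx g U p R) (hl : LD E φ (ball 0 R)) {k : ℕ}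
    (hK : ∀ y ∈ bl g U p R, RmB g k y K) (hv : v ∈ ball (0 : E) R) : RmB (comap φ g) k v K :=
  ((li_comap hc.met hl hv (h.mapsU hc hv)).RmB k K).2 (hK _ (h.maps hc hv))

theorem bounds_of (h : IsNC g U p φ) (hc : Cx g U p R) (hl : LD E φ (ball 0 R)) (hK0 : 0 ≤ K)
    (hK : ∀ y ∈ bl g U p R, RmB g 0 y K) (hR : K * R ^ 2 ≤ 1 / 6) (hv : v ∈ ball (0 : E) R)
    (ξ : E) : 1 / 4 * ‖ξ‖ ^ 2 ≤ comap φ g v ξ ξ ∧ comap φ g v ξ ξ ≤ 9 / 4 * ‖ξ‖ ^ 2 := by
  have h1 := mem_ball_zero_iff.1 hv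
  refine (h.rad hc ((norm_nonneg _).trans_lt h1) hl).bounds hv hK0
    (fun s hs => h.rmB hc hl hK (smul_mem_ball hv hs)) (le_trans ?_ hR) ξ
  gcongr

theorem comap_zero (h : IsNC g U p φ) (hc : Cx g U p R) (a b : E) :
    comap φ g 0 a b = inner ℝ a b := by
  obtain ⟨A, hA, rfl⟩ := h
  have h2 := contMDiffAt_expo hc.met hc.hs (zero_mem_Dom hc.met hc.hs hc.mem)
  have h3 : SM E A 0 := A.contDiff.contDiffAt.contMDiffAt
  rw [← comap_comp g (by rw [map_zero]; exact SM.md h2) h3.md, comap_model, A.fderiv, ← hA,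
    map_zero, comap_expo_zero hc.met hc.hs hc.mem]
  rfl

/-- no conjugate points -/
theorem ld (h : IsNC g U p φ) (hc : Cx g U p R) (hK0 : 0 ≤ K)
    (hK : ∀ y ∈ bl g U p R, RmB g 0 y K) (hR : K * R ^ 2 ≤ 1 / 6) : LD E φ (ball 0 R) := by
  have hs : ∀ r ≤ R, (∀ v ∈ ball (0 : E) r, ∀ ξ, ‖ξ‖ = 1 → 1 / 8 < comap φ g v ξ ξ) →
      LD E φ (ball 0 r) := fun r hr H =>
    ⟨isOpen_ball, fun v hv => (h.sm hc (ball_subset_ball hr hv)).contMDiffWithinAt,
      fun v hv => (injective_iff_map_eq_zero _).2 fun ξ hξ => by_contra fun hne => by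
        have h1 := H v hv (‖ξ‖⁻¹ • ξ) (norm_smul_inv_norm hne)
        rw [comap_apply, map_smul, hξ] at h1
        norm_num at h1⟩
  have hG : ∀ v ∈ ball (0 : E) R, ContinuousAt (comap φ g) v := fun v hv =>
    (hc.met.contDiffAt (h.sm hc hv) (h.mapsU hc hv)).continuousAt
  refine hs R le_rfl fun v hv ξ hξ => by_contra fun hne => ?_
  have h1 : closedBall (0 : E) ‖v‖ ⊆ ball 0 R := closedBall_subset_ball (mem_ball_zero_iff.1 hv)
  have h2 : IsCompact ((closedBall (0 : E) ‖v‖ ×ˢ sphere (0 : E) 1) ∩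
      (fun q : E × E => comap φ g q.1 q.2 q.2) ⁻¹' Iic (1 / 8)) := by
    have h3 := (isCompact_closedBall (0 : E) ‖v‖).prod (isCompact_sphere (0 : E) 1)
    refine h3.of_isClosed_subset (ContinuousOn.preimage_isClosed_of_isClosed
      (fun q hq => ?_) h3.isClosed isClosed_Iic) inter_subset_left
    exact (((ContinuousAt.comp (g := comap φ g) (hG _ (h1 hq.1)) continuousAt_fst).clm_apply
      continuousAt_snd).clm_apply continuousAt_snd).continuousWithinAt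
  obtain ⟨⟨w, η⟩, ⟨⟨h3, h4⟩, h5⟩, h6⟩ := h2.exists_isMinOn (f := fun q => ‖q.1‖)
    ⟨(v, ξ), ⟨by simp, by simpa using hξ⟩, not_lt.1 hne⟩ (by fun_prop)
  have h7 : ‖η‖ = 1 := by simpa using h4
  have h8 : ‖w‖ < R := mem_ball_zero_iff.1 (h1 h3)
  have h9 : 1 / 4 ≤ comap φ g w η η := by
    rcases eq_or_ne w 0 with rfl | hw
    · rw [h.comap_zero hc, real_inner_self_eq_norm_sq, h7]; norm_num
    have h10 := hs ‖w‖ h8.le fun u hu ζ hζ => not_le.1 fun h11 => by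
      have h12 := mem_ball_zero_iff.1 hu
      exact h12.not_ge (h6 (a := (u, ζ)) ⟨⟨mem_closedBall_zero_iff.2
        (h12.le.trans (mem_closedBall_zero_iff.1 h3)), by simpa using hζ⟩, h11⟩)
    have h11 : w ∈ closure (ball (0 : E) ‖w‖) := by
      rw [closure_ball _ (norm_ne_zero_iff.2 hw)]; simp
    refine ContinuousWithinAt.closure_le h11 continuousWithinAt_const
      (((hG w (h1 h3)).clm_apply continuousAt_const).clm_apply
        continuousAt_const).continuousWithinAt fun u hu => ?_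
    have h12 := (h.bounds_of (hc.mono h8.le) h10 hK0 (fun y hy => hK y (bl_mono h8.le hy))
      (le_trans (by gcongr) hR) hu η).1
    rwa [h7, one_pow, mul_one] at h12
  have h10 : comap φ g w η η ≤ 1 / 8 := h5
  linarith

theorem bounds (h : IsNC g U p φ) (hc : Cx g U p R) (hK0 : 0 ≤ K)
    (hK : ∀ y ∈ bl g U p R, RmB g 0 y K) (hR : K * R ^ 2 ≤ 1 / 6) (hv : v ∈ ball (0 : E) R)
    (ξ : E) : 1 / 4 * ‖ξ‖ ^ 2 ≤ comap φ g v ξ ξ ∧ comap φ g v ξ ξ ≤ 9 / 4 * ‖ξ‖ ^ 2 :=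
  h.bounds_of hc (h.ld hc hK0 hK hR) hK0 hK hR hv ξ

/-- the sharp form: `φ` is almost isometric on small balls -/
theorem near (h : IsNC g U p φ) (hc : Cx g U p R) (hK0 : 0 ≤ K)
    (hK : ∀ y ∈ bl g U p R, RmB g 0 y K) (hR : K * R ^ 2 ≤ 1 / 6) (hv : v ∈ ball (0 : E) R) :
    ∃ A : E →L[ℝ] E, (∀ a b, comap φ g v a b = inner ℝ (A a) (A b)) ∧
      ∀ ξ, ‖A ξ - ξ‖ ≤ 3 * (K * ‖v‖ ^ 2) * ‖ξ‖ := by
  have h1 := mem_ball_zero_iff.1 hv
  have hl := h.ld hc hK0 hK hR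
  refine (h.rad hc ((norm_nonneg _).trans_lt h1) hl).near hv hK0
    (fun s hs => h.rmB hc hl hK (smul_mem_ball hv hs)) (le_trans ?_ (hR.trans (by norm_num)))
  gcongr

theorem ed_le (h : IsNC g U p φ) (hc : Cx g U p R) (hK0 : 0 ≤ K)
    (hK : ∀ y ∈ bl g U p R, RmB g 0 y K) (hR : K * R ^ 2 ≤ 1 / 6) {a b : E}
    (ha : a ∈ ball (0 : E) R) (hb : b ∈ ball (0 : E) R) :
    ed g U (φ a) (φ b) ≤ ENNReal.ofReal (3 / 2 * ‖a - b‖) := by
  refine ((h.ld hc hK0 hK hR).ed_le (h.mapsU hc) a b).trans ((ed_le_norm (convex_ball 0 R) ha hb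
    fun u hu v => (h.bounds hc hK0 hK hR hu v).2).trans_eq ?_)
  rw [show (9 / 4 : ℝ) = (3 / 2) ^ 2 by norm_num, Real.sqrt_sq (by norm_num)]

/-- injective normal coordinates give a normal ball -/
theorem nb (h : IsNC g U p φ) (hc : Cx g U p R) (hR : 0 < R) (hl : LD E φ (ball 0 R))
    (hi : InjOn φ (ball 0 R)) : Nb g U p R := by
  obtain ⟨A, hA, rfl⟩ := h
  have h1 : MapsTo A.symm (tb (g p) R) (ball 0 R) := by
    rw [← image_ball hA]
    rintro _ ⟨v, hv, rfl⟩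
    simpa using hv
  have h2 : expo g U p = (expo g U p ∘ A) ∘ A.symm := by funext v; simp
  refine ⟨hR, tb_subset_Dom hc.met hc.hs hc.cpt hc.mem, ?_, ?_⟩
  · rw [h2]
    exact hl.comp (ld_model (isOpen_tb _ _) A.symm.contDiff.contDiffOn fun x _ => by
      rw [A.symm.fderiv]; exact A.symm.injective) h1
  · rw [h2]
    exact hi.comp A.symm.injective.injOn h1

theorem of_nb (h : IsNC g U p φ) (hn : Nb g U p R) :
    LD E φ (ball 0 R) ∧ InjOn φ (ball 0 R) := by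
  obtain ⟨A, hA, rfl⟩ := h
  have h1 : MapsTo A (ball 0 R) (tb (g p) R) := image_ball hA R ▸ mapsTo_image _ _
  exact ⟨hn.ld.comp (ld_model isOpen_ball A.contDiff.contDiffOn fun x _ => by
    rw [A.fderiv]; exact A.injective) h1, hn.inj.comp A.injective.injOn h1⟩

end IsNC

end Vale.Agent.P216G
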