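import Vale.Agent.P216G.Ten
import Vale.Agent.P216G.Ode
import Vale.Agent.P211.HK.LinOde

/-!
# The radial gauge: parallel frames along rays in normal coordinates
-/

open Set Filter Topology Function Metric
open scoped ContDiff

set_option maxSynthPendingDepth 3

noncomputable section

namespace Vale.Agent.P216G

open Vale.Agent.P219.RG Vale.Agent.P216R

variable {E : Type} [NormedAddCommGroup E] [InnerProductSpace ℝ E] [FiniteDimensional ℝ E]
  {G : E → Bil E} {r r' : ℝ} {e θ : ℝ × E → E →L[ℝ] E} {s : ℝ} {v : E}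

/-- `G` is a metric in normal coordinates on the ball of radius `r` -/
structure Rad (G : E → Bil E) (r : ℝ) : Prop where
  met : IsMetricOn G (ball 0 r)
  zero : ∀ v w, G 0 v w = inner ℝ v w
  geo : ∀ v ∈ ball (0 : E) r, ∀ s ∈ Icc (0 : ℝ) 1, chris G (s • v) v v = 0

/-- parallel frame `e` along the rays, with inverse `θ` -/
structure Gauge (G : E → Bil E) (r : ℝ) (e θ : ℝ × E → E →L[ℝ] E) : Prop where
  se : ContDiff ℝ ∞ e
  sθ : ContDiff ℝ ∞ θ
  e0 : ∀ v, e (0, v) = 1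
  θ0 : ∀ v, θ (0, v) = 1
  eθ : ∀ p, e p * θ p = 1
  θe : ∀ p, θ p * e p = 1
  de : ∀ v ∈ ball (0 : E) r, ∀ s ∈ Icc (0 : ℝ) 1,
    HasDerivAt (fun s => e (s, v)) (-chrisB G (s • v) v * e (s, v)) s
  dθ : ∀ v ∈ ball (0 : E) r, ∀ s ∈ Icc (0 : ℝ) 1,
    HasDerivAt (fun s => θ (s, v)) (θ (s, v) * chrisB G (s • v) v) s

omit [FiniteDimensional ℝ E] in
theorem smul_mem_ball (hv : v ∈ ball (0 : E) r) (hs : s ∈ Icc (0 : ℝ) 1) :
    s • v ∈ ball (0 : E) r := by
  rw [mem_ball_zero_iff] at hv ⊢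
  rw [norm_smul, Real.norm_of_nonneg hs.1]
  exact (mul_le_of_le_one_left (norm_nonneg _) hs.2).trans_lt hv

theorem exists_gauge (hG : IsMetricOn G (ball 0 r)) (hr : r' < r) : ∃ e θ, Gauge G r' e θ := by
  have : CompleteSpace E := FiniteDimensional.complete ℝ E
  have hc : ContDiff ℝ ∞ fun q : E × ℝ => q.2 • q.1 := by fun_prop
  obtain ⟨U, Y, hU, hY, hU0, hY0, hYU, hUY, O, -, hKO, δ, hδ, hd⟩ :=
    P211.HK.exists_linFlow_local (W := E →L[ℝ] E) (A := fun q : E × ℝ => -chrisB G (q.2 • q.1) q.1)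
      (Ω := (fun q : E × ℝ => q.2 • q.1) ⁻¹' ball 0 r) (isOpen_ball.preimage hc.continuous)
      (fun q hq => (((ContDiffAt.comp q (g := chrisB G) (hG.contDiffAt_chrisB hq)
        hc.contDiffAt).clm_apply contDiffAt_fst).neg).contDiffWithinAt)
      (isCompact_closedBall (0 : E) r')
      (fun p hp s hs => smul_mem_ball (closedBall_subset_ball hr hp) hs)
  have hI : ∀ s ∈ Icc (0 : ℝ) 1, s ∈ Ioo (-δ) (1 + δ) := fun s hs =>
    ⟨by linarith [hs.1], by linarith [hs.2]⟩
  refine ⟨fun p => U (p.2, p.1), fun p => Y (p.2, p.1), hU.comp (by fun_prop),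
    hY.comp (by fun_prop), hU0, hY0, fun p => hUY _, fun p => hYU _, fun v hv s hs =>
      (hd v (hKO (ball_subset_closedBall hv)) s (hI s hs)).2.1, fun v hv s hs => ?_⟩
  simpa using (hd v (hKO (ball_subset_closedBall hv)) s (hI s hs)).2.2

/-- derivative of the frame in the direction of the base point -/
def De (e : ℝ × E → E →L[ℝ] E) (p : ℝ × E) : E →L[ℝ] E →L[ℝ] E :=
  fderiv ℝ (fun w => e (p.1, w)) p.2

/-- the coframe -/
def gA (θ : ℝ × E → E →L[ℝ] E) (p : ℝ × E) : E →L[ℝ] E := p.1 • θ p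

/-- the connection form -/
def gB (G : E → Bil E) (e θ : ℝ × E → E →L[ℝ] E) (p : ℝ × E) : E →L[ℝ] E →L[ℝ] E :=
  (ContinuousLinearMap.compL ℝ E E E (θ p)).comp
    (De e p + p.1 • ((ContinuousLinearMap.compL ℝ E E E).flip (e p)).comp (chrisB G (p.1 • p.2)))

/-- the curvature in the frame -/
def gR (G : E → Bil E) (e θ : ℝ × E → E →L[ℝ] E) (p : ℝ × E) : E →L[ℝ] E →L[ℝ] E →L[ℝ] E :=
  ((ContinuousLinearMap.compL ℝ E (E →L[ℝ] E) (E →L[ℝ] E))
    ((ContinuousLinearMap.compL ℝ E E E (θ p)).comp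
      ((ContinuousLinearMap.compL ℝ E E E).flip (e p)))).comp
    ((curvB G (p.1 • p.2)).bilinearComp (e p) (e p))

omit [FiniteDimensional ℝ E] in
theorem gB_apply (p : ℝ × E) (ξ a : E) :
    gB G e θ p ξ a = θ p (De e p ξ a + p.1 • chrisB G (p.1 • p.2) ξ (e p a)) := rfl

omit [FiniteDimensional ℝ E] in
theorem gR_apply (p : ℝ × E) (a b c : E) :
    gR G e θ p a b c = θ p (curvB G (p.1 • p.2) (e p a) (e p b) (e p c)) := rfl

theorem hasDerivAt_of_apply {F H : Type} [NormedAddCommGroup F] [NormedSpace ℝ F]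
    [NormedAddCommGroup H] [NormedSpace ℝ H] {f : ℝ → F →L[ℝ] H} {f' : F →L[ℝ] H} {s : ℝ}
    (h : DifferentiableAt ℝ f s) (h' : ∀ a, HasDerivAt (fun t => f t a) (f' a) s) :
    HasDerivAt f f' s := by
  refine h.hasDerivAt.congr_deriv (ContinuousLinearMap.ext fun a => ?_)
  simpa using (h.hasDerivAt.clm_apply (hasDerivAt_const s a)).unique (h' a)

theorem const_of_deriv {F : Type} [NormedAddCommGroup F] [NormedSpace ℝ F] {f : ℝ → F}
    (h : ∀ s ∈ Icc (0 : ℝ) 1, HasDerivAt f 0 s) {s : ℝ} (hs : s ∈ Icc (0 : ℝ) 1) : f s = f 0 :=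
  constant_of_has_deriv_right_zero (fun t ht => (h t ht).continuousAt.continuousWithinAt)
    (fun t ht => (h t ⟨ht.1, ht.2.le⟩).hasDerivWithinAt) s hs

omit [FiniteDimensional ℝ E] in
theorem hasDerivAt_ray {F : Type} [NormedAddCommGroup F] [NormedSpace ℝ F] {f : E → F}
    (h : DifferentiableAt ℝ f (s • v)) :
    HasDerivAt (fun t : ℝ => f (t • v)) (fderiv ℝ f (s • v) v) s := by
  have h1 : HasDerivAt (fun t : ℝ => t • v) v s := by
    simpa using (hasDerivAt_id s).smul_const v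
  exact h.hasFDerivAt.comp_hasDerivAt s h1

namespace Gauge

omit [FiniteDimensional ℝ E] in
theorem e_θ (h : Gauge G r e θ) (p : ℝ × E) (a : E) : e p (θ p a) = a := by
  simpa using congrArg (fun L : E →L[ℝ] E => L a) (h.eθ p)

omit [FiniteDimensional ℝ E] in
theorem θ_e (h : Gauge G r e θ) (p : ℝ × E) (a : E) : θ p (e p a) = a := by
  simpa using congrArg (fun L : E →L[ℝ] E => L a) (h.θe p)

omit [FiniteDimensional ℝ E] in
theorem de_apply (h : Gauge G r e θ) (hv : v ∈ ball (0 : E) r) (hs : s ∈ Icc (0 : ℝ) 1) (a : E) :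
    HasDerivAt (fun s => e (s, v) a) (-chrisB G (s • v) v (e (s, v) a)) s := by
  simpa using (h.de v hv s hs).clm_apply (hasDerivAt_const s a)

omit [FiniteDimensional ℝ E] in
theorem e_self (h : Gauge G r' e θ) (hG : Rad G r) (hr : r' ≤ r) (hv : v ∈ ball (0 : E) r')
    (hs : s ∈ Icc (0 : ℝ) 1) : e (s, v) v = v := by
  have h1 : θ (s, v) v = θ (0, v) v := const_of_deriv (f := fun s => θ (s, v) v) (fun t ht => by
    have := (h.dθ v hv t ht).clm_apply (hasDerivAt_const t v)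
    simpa [chrisB_apply, hG.geo v (ball_subset_ball hr hv) t ht] using this) hs
  rw [h.θ0] at h1
  conv_lhs => rw [show v = θ (s, v) v from h1.symm]
  exact congrArg₂ (fun p a => e p a) (by rw [h1]; rfl) rfl |>.trans (h.e_θ (s, v) v)

theorem orth (h : Gauge G r' e θ) (hG : Rad G r) (hr : r' ≤ r) (hv : v ∈ ball (0 : E) r')
    (hs : s ∈ Icc (0 : ℝ) 1) (a b : E) :
    G (s • v) (e (s, v) a) (e (s, v) b) = inner ℝ a b := by
  have h1 := const_of_deriv (f := fun s => G (s • v) (e (s, v) a) (e (s, v) b)) (fun t ht => by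
    have hm := smul_mem_ball (ball_subset_ball hr hv) ht
    have h2 := hasDerivAt_ray (hG.met.differentiableAt hm)
    refine ((h2.clm_apply (h.de_apply hv ht a)).clm_apply (h.de_apply hv ht b)).congr_deriv ?_
    simp [hG.met.chris_compat hm, chrisB_apply]) hs
  simpa [h.e0, hG.zero] using h1

omit [FiniteDimensional ℝ E] in
theorem contDiff_De (h : Gauge G r e θ) : ContDiff ℝ ∞ (De e) := by
  rw [← contDiffOn_univ, ← univ_prod_univ]
  exact contDiffOn_fderiv_snd uniqueDiffOn_univ isOpen_univ h.se.contDiffOn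

omit [FiniteDimensional ℝ E] in
theorem hasFDerivAt_e (h : Gauge G r e θ) (s : ℝ) (v : E) :
    HasFDerivAt (fun w => e (s, w)) (De e (s, v)) v :=
  ((h.se.comp (contDiff_const.prodMk contDiff_id)).differentiable (by simp) v).hasFDerivAt

omit [FiniteDimensional ℝ E] in
theorem De_zero (h : Gauge G r e θ) (v : E) : De e (0, v) = 0 := by
  simp [De, h.e0]

theorem contDiffAt_gB (h : Gauge G r' e θ) (hG : IsMetricOn G (ball 0 r)) {p : ℝ × E}
    (hp : p.1 • p.2 ∈ ball (0 : E) r) : ContDiffAt ℝ ∞ (gB G e θ) p := by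
  have h1 : ContDiffAt ℝ ∞ (fun p : ℝ × E => chrisB G (p.1 • p.2)) p :=
    ContDiffAt.comp p (g := chrisB G) (hG.contDiffAt_chrisB hp) (by fun_prop)
  exact (contDiffAt_const.clm_apply h.sθ.contDiffAt).clm_comp (h.contDiff_De.contDiffAt.add
    (contDiffAt_fst.smul ((contDiffAt_const.clm_apply h.se.contDiffAt).clm_comp h1)))

omit [FiniteDimensional ℝ E] in
theorem contDiff_gA (h : Gauge G r e θ) : ContDiff ℝ ∞ (gA θ) := contDiff_fst.smul h.sθ

theorem dDe (h : Gauge G r' e θ) (hG : IsMetricOn G (ball 0 r)) (hr : r' ≤ r)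
    (hv : v ∈ ball (0 : E) r') (hs : s ∈ Icc (0 : ℝ) 1) (ξ a : E) :
    HasDerivAt (fun s => De e (s, v) ξ a)
      (-(s • fderiv ℝ (chrisB G) (s • v) ξ v (e (s, v) a) + chrisB G (s • v) ξ (e (s, v) a) +
        chrisB G (s • v) v (De e (s, v) ξ a))) s := by
  have hm := smul_mem_ball (ball_subset_ball hr hv) hs
  have h1 := hasDerivAt_fderiv_snd (G := e) (s := s) (x := v) h.se.contDiffAt
    (Z := fun w => -chrisB G (s • w) w * e (s, w))
    (by filter_upwards [isOpen_ball.mem_nhds hv] with w hw using h.de w hw s hs)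
  have h2 : HasFDerivAt (fun w : E => chrisB G (s • w))
      ((fderiv ℝ (chrisB G) (s • v)).comp (s • ContinuousLinearMap.id ℝ E)) v :=
    (hG.differentiableAt_chrisB hm).hasFDerivAt.comp v ((hasFDerivAt_id v).const_smul s)
  have h3 := ((h2.clm_apply (hasFDerivAt_id v)).neg).clm_comp (h.hasFDerivAt_e s v)
  have h4 := (h1.clm_apply (hasDerivAt_const s ξ)).clm_apply (hasDerivAt_const s a)
  refine h4.congr_deriv ?_
  erw [h3.fderiv]
  simp
  abel

omit [FiniteDimensional ℝ E] in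
theorem De_self (h : Gauge G r' e θ) (hG : Rad G r) (hr : r' ≤ r) (hv : v ∈ ball (0 : E) r')
    (hs : s ∈ Icc (0 : ℝ) 1) (ξ : E) : De e (s, v) ξ v = ξ - e (s, v) ξ := by
  have h1 := ((h.hasFDerivAt_e s v).clm_apply (hasFDerivAt_id v)).unique
    ((hasFDerivAt_id v).congr_of_eventuallyEq (by
      filter_upwards [isOpen_ball.mem_nhds hv] with w hw using h.e_self hG hr hw hs))
  have h2 := congrArg (fun L : E →L[ℝ] E => L ξ) h1
  simp at h2
  exact eq_sub_of_add_eq' h2

theorem dA (h : Gauge G r' e θ) (hG : Rad G r) (hr : r' ≤ r) (hv : v ∈ ball (0 : E) r')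
    (hs : s ∈ Icc (0 : ℝ) 1) :
    HasDerivAt (fun s => gA θ (s, v)) ((gB G e θ (s, v)).flip v + 1) s := by
  have hm := smul_mem_ball (ball_subset_ball hr hv) hs
  refine ((hasDerivAt_id s).smul (h.dθ v hv s hs)).congr_deriv ?_
  ext ξ
  simp only [ContinuousLinearMap.add_apply, ContinuousLinearMap.flip_apply, gB_apply,
    h.De_self hG hr hv hs, h.e_self hG hr hv hs, map_add, map_sub, h.θ_e, map_smul, chrisB_apply,
    hG.met.chris_symm hm ξ v]
  simp [chrisB_apply]
  abel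

theorem dB (h : Gauge G r' e θ) (hG : Rad G r) (hr : r' ≤ r) (hv : v ∈ ball (0 : E) r')
    (hs : s ∈ Icc (0 : ℝ) 1) :
    HasDerivAt (fun s => gB G e θ (s, v)) ((gR G e θ (s, v) v).comp (gA θ (s, v))) s := by
  have hm := smul_mem_ball (ball_subset_ball hr hv) hs
  have hd : DifferentiableAt ℝ (fun s => gB G e θ (s, v)) s :=
    (ContDiffAt.comp s (g := gB G e θ) (h.contDiffAt_gB hG.met (p := (s, v)) hm)
      (contDiffAt_id.prodMk contDiffAt_const)).differentiableAt (by simp)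
  refine hasDerivAt_of_apply hd fun ξ => hasDerivAt_of_apply
    (hd.clm_apply (differentiableAt_const _)) fun a => ?_
  have h2 := hasDerivAt_ray (hG.met.differentiableAt_chrisB hm)
  have h3 := (h.dθ v hv s hs).clm_apply ((h.dDe hG.met hr hv hs ξ a).add ((hasDerivAt_id s).smul
    ((h2.clm_apply (hasDerivAt_const s ξ)).clm_apply (h.de_apply hv hs a))))
  refine h3.congr_deriv ?_
  simp only [ContinuousLinearMap.comp_apply, gR_apply, gA, h.e_self hG hr hv hs,
    ContinuousLinearMap.smul_apply, map_smul, h.e_θ, curvB_apply hG.met hm, hG.met.curv_eq hm]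
  simp [smul_add, smul_sub]
  abel

omit [FiniteDimensional ℝ E] in
theorem gB_zero (h : Gauge G r e θ) (v : E) : gB G e θ (0, v) = 0 := by
  ext ξ a
  simp [gB_apply, h.De_zero]

theorem eq_inner (h : Gauge G r' e θ) (hG : Rad G r) (hr : r' ≤ r) (hv : v ∈ ball (0 : E) r')
    (a b : E) : G v a b = inner ℝ (gA θ (1, v) a) (gA θ (1, v) b) := by
  have := h.orth hG hr hv ⟨zero_le_one, le_rfl⟩ (θ (1, v) a) (θ (1, v) b)
  simpa [h.e_θ, gA] using this

theorem inner_gR (h : Gauge G r' e θ) (hG : Rad G r) (hr : r' ≤ r) (hv : v ∈ ball (0 : E) r')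
    (hs : s ∈ Icc (0 : ℝ) 1) (w : Fin 4 → E) :
    inner ℝ (gR G e θ (s, v) (w 0) (w 1) (w 2)) (w 3) =
      rmG G 0 (s • v, fun i => e (s, v) (w i)) := by
  rw [← h.orth hG hr hv hs, gR_apply, h.e_θ,
    rmG_zero hG.met (smul_mem_ball (ball_subset_ball hr hv) hs)]

end Gauge

end Vale.Agent.P216G
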